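import Mathlib
import Vale.Agent.Lib.P237.helper98.Bright

/-!
# P237: the brightness of a compact convex set is positively homogeneous

For a compact convex set `D` and a Haar measure `μ`, the function
`t ↦ bright μ D (t • v)` is additive and nonnegative on `[0, ∞)`, hence linear:
`bright μ D (t • v) = t * bright μ D v` for `t ≥ 0`.
-/

open MeasureTheory Set
open scoped Pointwise

namespace Vale.Agent.Lib.P237.H55

open Vale.Agent.Lib.P237

/-- A nonnegative additive function on the half line is linear. -/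
theorem additive_nonneg_linear (G : ℝ → ℝ)
    (hadd : ∀ s t, 0 ≤ s → 0 ≤ t → G (s + t) = G s + G t)
    (hnn : ∀ t, 0 ≤ t → 0 ≤ G t) : ∀ t, 0 ≤ t → G t = t * G 1 := by
  have hnat : ∀ (n : ℕ) (s : ℝ), 0 ≤ s → G (n * s) = n * G s := by
    intro n s hs
    induction n with
    | zero =>
      have h := hadd 0 0 le_rfl le_rfl
      simp only [add_zero] at h
      simp only [Nat.cast_zero, zero_mul]
      linarith
    | succ n ih =>
      have e : ((n + 1 : ℕ) : ℝ) * s = (n : ℝ) * s + s := by push_cast; ring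
      rw [e, hadd _ _ (by positivity) hs, ih]
      push_cast; ring
  have hmono : ∀ s t, 0 ≤ s → s ≤ t → G s ≤ G t := by
    intro s t hs hst
    have h := hadd s (t - s) hs (by linarith)
    rw [add_sub_cancel] at h
    have h2 := hnn (t - s) (by linarith)
    linarith
  have hG1 : 0 ≤ G 1 := hnn 1 (by norm_num)
  intro t ht
  have key : ∀ n : ℕ, 0 < n → |G t - t * G 1| ≤ G 1 / n := by
    intro n hn
    have hn' : (0 : ℝ) < (n : ℝ) := by exact_mod_cast hn
    have hm1 : ((⌊(n : ℝ) * t⌋₊ : ℕ) : ℝ) ≤ n * t := Nat.floor_le (by positivity)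
    have hm2 : (n : ℝ) * t < ((⌊(n : ℝ) * t⌋₊ : ℕ) : ℝ) + 1 := Nat.lt_floor_add_one _
    generalize ⌊(n : ℝ) * t⌋₊ = m at hm1 hm2
    have hq : ∀ j : ℕ, G ((j : ℝ) / n) = (j : ℝ) / n * G 1 := by
      intro j
      have h1 := hnat n ((j : ℝ) / n) (by positivity)
      have h2 := hnat j 1 (by norm_num)
      have e : (n : ℝ) * ((j : ℝ) / n) = (j : ℝ) * 1 := by field_simp
      rw [e, h2] at h1
      field_simp
      linarith
    have hlo : G ((m : ℝ) / n) ≤ G t :=
      hmono _ _ (by positivity) (by rw [div_le_iff₀ hn']; linarith)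
    have hhi : G t ≤ G (((m + 1 : ℕ) : ℝ) / n) :=
      hmono _ _ ht (by rw [le_div_iff₀ hn']; push_cast; linarith)
    rw [hq] at hlo hhi
    push_cast at hhi
    have e1 : (m : ℝ) / n * G 1 = ((m : ℝ) * G 1) / n := by ring
    have e2 : ((m : ℝ) + 1) / n * G 1 = ((m : ℝ) * G 1 + G 1) / n := by ring
    rw [e1, div_le_iff₀ hn'] at hlo
    rw [e2, le_div_iff₀ hn'] at hhi
    have hdiv : G 1 / n * n = G 1 := div_mul_cancel₀ _ hn'.ne'
    have h3 : (n : ℝ) * t * G 1 ≤ ((m : ℝ) + 1) * G 1 := mul_le_mul_of_nonneg_right hm2.le hG1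
    have h4 : (m : ℝ) * G 1 ≤ n * t * G 1 := mul_le_mul_of_nonneg_right hm1 hG1
    rw [abs_le]
    constructor
    · have h5 : -(G 1 / n) * n ≤ (G t - t * G 1) * n := by
        rw [neg_mul, hdiv]
        linarith
      exact le_of_mul_le_mul_right h5 hn'
    · have h5 : (G t - t * G 1) * n ≤ G 1 / n * n := by
        rw [hdiv]
        linarith
      exact le_of_mul_le_mul_right h5 hn'
  by_contra hne
  have hpos : 0 < |G t - t * G 1| := abs_pos.mpr (sub_ne_zero.mpr hne)
  obtain ⟨n, hn⟩ := exists_nat_gt (G 1 / |G t - t * G 1|)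
  have hn0 : 0 < n := by
    have h0 : (0 : ℝ) ≤ G 1 / |G t - t * G 1| := by positivity
    exact_mod_cast lt_of_le_of_lt h0 hn
  have hn' : (0 : ℝ) < (n : ℝ) := by exact_mod_cast hn0
  have h1 := key n hn0
  rw [div_lt_iff₀ hpos] at hn
  rw [le_div_iff₀ hn'] at h1
  linarith

section Sweep

variable {V : Type*} [NormedAddCommGroup V] [NormedSpace ℝ V]

theorem mem_sweep_iff (D : Set V) (v : V) (s : ℝ) (hs : 0 ≤ s) (x : V) :
    x ∈ D + segment ℝ 0 (s • v) ↔ ∃ a, 0 ≤ a ∧ a ≤ s ∧ x - a • v ∈ D := by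
  constructor
  · rintro ⟨d, hd, w, hw, rfl⟩
    rw [segment_eq_image] at hw
    obtain ⟨θ, ⟨hθ0, hθ1⟩, rfl⟩ := hw
    refine ⟨θ * s, by positivity, by nlinarith, ?_⟩
    have e : d + ((1 - θ) • (0 : V) + θ • s • v) - (θ * s) • v = d := by
      rw [smul_zero, zero_add, smul_smul, add_sub_cancel_right]
    rw [e]; exact hd
  · rintro ⟨a, ha0, has, hx⟩
    refine ⟨x - a • v, hx, a • v, ?_, sub_add_cancel x (a • v)⟩
    rw [segment_eq_image]
    rcases eq_or_lt_of_le hs with h0 | hpos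
    · have ha : a = 0 := le_antisymm (by rw [h0]; exact has) ha0
      exact ⟨0, ⟨le_rfl, zero_le_one⟩, by simp [ha]⟩
    · refine ⟨a / s, ⟨by positivity, by rw [div_le_one hpos]; exact has⟩, ?_⟩
      show (1 - a / s) • (0 : V) + (a / s) • s • v = a • v
      rw [smul_zero, zero_add, smul_smul, div_mul_cancel₀ a hpos.ne']

theorem mem_vadd_sweep_iff (D : Set V) (v : V) (s t : ℝ) (ht : 0 ≤ t) (x : V) :
    x ∈ (s • v) +ᵥ (D + segment ℝ 0 (t • v)) ↔ ∃ a, s ≤ a ∧ a ≤ s + t ∧ x - a • v ∈ D := by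
  rw [Set.mem_vadd_set_iff_neg_vadd_mem, vadd_eq_add, mem_sweep_iff D v t ht]
  constructor
  · rintro ⟨b, hb0, hbt, hx⟩
    refine ⟨s + b, by linarith, by linarith, ?_⟩
    have e : x - (s + b) • v = -(s • v) + x - b • v := by rw [add_smul]; abel
    rw [e]; exact hx
  · rintro ⟨a, hsa, hat, hx⟩
    refine ⟨a - s, by linarith, by linarith, ?_⟩
    have e : -(s • v) + x - (a - s) • v = x - a • v := by rw [sub_smul]; abel
    rw [e]; exact hx

theorem sweep_union (D : Set V) (v : V) (s t : ℝ) (hs : 0 ≤ s) (ht : 0 ≤ t) :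
    D + segment ℝ 0 ((s + t) • v)
      = (D + segment ℝ 0 (s • v)) ∪ ((s • v) +ᵥ (D + segment ℝ 0 (t • v))) := by
  ext x
  rw [mem_union, mem_sweep_iff D v (s + t) (by linarith), mem_sweep_iff D v s hs,
    mem_vadd_sweep_iff D v s t ht]
  constructor
  · rintro ⟨a, ha0, hast, hx⟩
    rcases le_total a s with h | h
    · exact Or.inl ⟨a, ha0, h, hx⟩
    · exact Or.inr ⟨a, h, hast, hx⟩
  · rintro (⟨a, ha0, has, hx⟩ | ⟨a, hsa, hast, hx⟩)
    · exact ⟨a, ha0, by linarith, hx⟩
    · exact ⟨a, by linarith, hast, hx⟩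

theorem sweep_inter (D : Set V) (hD : Convex ℝ D) (v : V) (s t : ℝ) (hs : 0 ≤ s) (ht : 0 ≤ t) :
    (D + segment ℝ 0 (s • v)) ∩ ((s • v) +ᵥ (D + segment ℝ 0 (t • v))) = (s • v) +ᵥ D := by
  ext x
  rw [mem_inter_iff, mem_sweep_iff D v s hs, mem_vadd_sweep_iff D v s t ht,
    Set.mem_vadd_set_iff_neg_vadd_mem, vadd_eq_add]
  have e0 : -(s • v) + x = x - s • v := by abel
  rw [e0]
  constructor
  · rintro ⟨⟨a, ha0, has, hxa⟩, ⟨b, hsb, hbt, hxb⟩⟩
    rcases eq_or_lt_of_le (le_trans has hsb) with hab | hab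
    · have hsa : a = s := le_antisymm has (by rw [hab]; exact hsb)
      rw [← hsa]; exact hxa
    · have hba : 0 < b - a := by linarith
      have hl0 : 0 ≤ (s - a) / (b - a) := div_nonneg (by linarith) hba.le
      have hl1 : 0 ≤ 1 - (s - a) / (b - a) := by
        rw [sub_nonneg, div_le_one hba]; linarith
      have hmem := hD hxa hxb hl1 hl0 (by ring)
      have hl : (1 - (s - a) / (b - a)) * a + (s - a) / (b - a) * b = s := by
        field_simp; ring
      have e : (1 - (s - a) / (b - a)) • (x - a • v) + ((s - a) / (b - a)) • (x - b • v)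
          = x - ((1 - (s - a) / (b - a)) * a + (s - a) / (b - a) * b) • v := by
        module
      rw [e, hl] at hmem
      exact hmem
  · intro hx
    exact ⟨⟨s, hs, le_rfl, hx⟩, ⟨s, le_rfl, by linarith, hx⟩⟩

end Sweep

section Hom

variable {V : Type*} [NormedAddCommGroup V] [NormedSpace ℝ V] [FiniteDimensional ℝ V]
  [MeasurableSpace V] [BorelSpace V]

omit [FiniteDimensional ℝ V] [BorelSpace V] in
theorem bright_nonneg (μ : Measure V) [μ.IsAddHaarMeasure] (D : Set V) (hDc : IsCompact D)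
    (v : V) : 0 ≤ bright μ D v := by
  unfold bright
  have hsub : D ⊆ D + segment ℝ 0 v := by
    intro x hx
    exact ⟨x, hx, 0, left_mem_segment ℝ 0 v, add_zero x⟩
  have hfin : μ (D + segment ℝ 0 v) ≠ ⊤ := (hDc.add (isCompact_seg' _ _)).measure_lt_top.ne
  have := ENNReal.toReal_mono hfin (measure_mono hsub)
  linarith

omit [FiniteDimensional ℝ V] [BorelSpace V] in
theorem measure_sweep_eq (μ : Measure V) [μ.IsAddHaarMeasure] (D : Set V) (hDc : IsCompact D)
    (v : V) : μ (D + segment ℝ 0 v) = μ D + ENNReal.ofReal (bright μ D v) := by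
  have hfin : μ (D + segment ℝ 0 v) ≠ ⊤ := (hDc.add (isCompact_seg' _ _)).measure_lt_top.ne
  have hfin2 : μ D ≠ ⊤ := hDc.measure_lt_top.ne
  have hsub : D ⊆ D + segment ℝ 0 v := by
    intro x hx
    exact ⟨x, hx, 0, left_mem_segment ℝ 0 v, add_zero x⟩
  have hle := ENNReal.toReal_mono hfin (measure_mono hsub)
  unfold bright
  rw [ENNReal.ofReal_sub _ ENNReal.toReal_nonneg, ENNReal.ofReal_toReal hfin,
    ENNReal.ofReal_toReal hfin2]
  rw [add_tsub_cancel_of_le (measure_mono hsub)]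

theorem bright_add (μ : Measure V) [μ.IsAddHaarMeasure] (D : Set V) (hDc : IsCompact D)
    (hDv : Convex ℝ D) (v : V) (s t : ℝ) (hs : 0 ≤ s) (ht : 0 ≤ t) :
    bright μ D ((s + t) • v) = bright μ D (s • v) + bright μ D (t • v) := by
  have hA : IsCompact (D + segment ℝ 0 (s • v)) := hDc.add (isCompact_seg' _ _)
  have hB0 : IsCompact (D + segment ℝ 0 (t • v)) := hDc.add (isCompact_seg' _ _)
  have hB : IsCompact ((s • v) +ᵥ (D + segment ℝ 0 (t • v))) := hB0.vadd (s • v)
  have hC : IsCompact (D + segment ℝ 0 ((s + t) • v)) := hDc.add (isCompact_seg' _ _)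
  have h := measure_union_add_inter (μ := μ) (D + segment ℝ 0 (s • v)) hB.measurableSet
  rw [← sweep_union D v s t hs ht, sweep_inter D hDv v s t hs ht, measure_vadd, measure_vadd]
    at h
  have h' := congrArg ENNReal.toReal h
  rw [ENNReal.toReal_add hC.measure_lt_top.ne hDc.measure_lt_top.ne,
    ENNReal.toReal_add hA.measure_lt_top.ne hB0.measure_lt_top.ne] at h'
  unfold bright
  linarith

/-- Positive homogeneity of the brightness of a compact convex set. -/
theorem bright_smul (μ : Measure V) [μ.IsAddHaarMeasure] (D : Set V) (hDc : IsCompact D)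
    (hDv : Convex ℝ D) (v : V) (t : ℝ) (ht : 0 ≤ t) :
    bright μ D (t • v) = t * bright μ D v := by
  have h := additive_nonneg_linear (fun r => bright μ D (r • v))
    (fun s t hs ht => bright_add μ D hDc hDv v s t hs ht)
    (fun r _ => bright_nonneg μ D hDc (r • v)) t ht
  simpa using h

end Hom

end Vale.Agent.Lib.P237.H55
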