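import Mathlib

/-!
# P237: Petty's constant is at most `2 ^ n`

With `kap m = sqrt(pi) ^ m / Gamma (m / 2 + 1)` (the volume of the unit ball of `ℝ ^ m`) we prove
`kap (n - 1) ^ n ≤ 2 ^ n * kap n ^ (n - 2)` for every `n ≥ 2`, in the real form (`kappa_real`)
and for the volumes of Euclidean unit balls (`kappa_ball`).
-/

namespace Vale.Agent.Lib.P237.H55

open MeasureTheory

/-- `gam m = Gamma (m / 2 + 1)`. -/
noncomputable def gam (m : ℕ) : ℝ := Real.Gamma ((m : ℝ) / 2 + 1)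

theorem gam_pos (m : ℕ) : 0 < gam m :=
  Real.Gamma_pos_of_pos (by positivity)

theorem gam_add_two (m : ℕ) : gam (m + 2) = ((m : ℝ) / 2 + 1) * gam m := by
  unfold gam
  have h : (((m + 2 : ℕ) : ℝ)) / 2 + 1 = ((m : ℝ) / 2 + 1) + 1 := by
    push_cast; ring
  rw [h, Real.Gamma_add_one (by positivity)]

theorem gam_zero : gam 0 = 1 := by
  unfold gam
  simp

theorem gam_one : gam 1 = Real.sqrt Real.pi / 2 := by
  unfold gam
  have h : ((1 : ℕ) : ℝ) / 2 + 1 = 1 / 2 + 1 := by norm_num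
  rw [h, Real.Gamma_add_one (by norm_num), Real.Gamma_one_half_eq]
  ring

theorem gam_two : gam 2 = 1 := by
  rw [gam_add_two, gam_zero]; norm_num

theorem gam_three : gam 3 = 3 * Real.sqrt Real.pi / 4 := by
  rw [gam_add_two, gam_one]; push_cast; ring

/-- Product formula (duplication formula at half-integers). -/
theorem gam_mul (n : ℕ) :
    gam (n + 1) * gam n = Real.sqrt Real.pi * ((n + 1).factorial : ℝ) / 2 ^ (n + 1) := by
  induction n with
  | zero => rw [gam_zero, gam_one]; simp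
  | succ k ih =>
    rw [gam_add_two, mul_assoc, mul_comm (gam k) (gam (k + 1)), ih,
      Nat.factorial_succ (k + 1)]
    push_cast
    field_simp
    ring

/-- Log-convexity of Gamma at half-integers. -/
theorem gam_sq_le (n : ℕ) : gam (n + 1) ^ 2 ≤ ((n : ℝ) / 2 + 1) * gam n ^ 2 := by
  have hs : (0 : ℝ) < (n : ℝ) / 2 + 1 := by positivity
  have ht : (0 : ℝ) < (n : ℝ) / 2 + 1 + 1 := by positivity
  have h := Real.Gamma_mul_add_mul_le_rpow_Gamma_mul_rpow_Gamma hs ht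
    (a := 1 / 2) (b := 1 / 2) (by norm_num) (by norm_num) (by norm_num)
  have e1 : (1 / 2 : ℝ) * ((n : ℝ) / 2 + 1) + 1 / 2 * ((n : ℝ) / 2 + 1 + 1)
      = ((n + 1 : ℕ) : ℝ) / 2 + 1 := by push_cast; ring
  rw [e1, ← Real.sqrt_eq_rpow, ← Real.sqrt_eq_rpow, Real.Gamma_add_one hs.ne'] at h
  have hg : 0 < gam n := gam_pos n
  have hg1 : 0 < gam (n + 1) := gam_pos (n + 1)
  have h' : gam (n + 1) ≤ Real.sqrt (gam n) * Real.sqrt (((n : ℝ) / 2 + 1) * gam n) := h
  calc gam (n + 1) ^ 2 ≤ (Real.sqrt (gam n) * Real.sqrt (((n : ℝ) / 2 + 1) * gam n)) ^ 2 :=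
        pow_le_pow_left₀ hg1.le h' 2
    _ = gam n * (((n : ℝ) / 2 + 1) * gam n) := by
        rw [mul_pow, Real.sq_sqrt hg.le, Real.sq_sqrt (by positivity)]
    _ = ((n : ℝ) / 2 + 1) * gam n ^ 2 := by ring

/-- The numerical inequality `(pi (k + 3) / 2) ^ (k + 1) ≤ ((k + 2)!) ^ 2` for `k ≥ 2`. -/
theorem num_ineq (k : ℕ) (hk : 2 ≤ k) :
    (Real.pi * ((k : ℝ) + 3) / 2) ^ (k + 1) ≤ (((k + 2).factorial : ℝ)) ^ 2 := by
  have hpi := Real.pi_lt_d2
  have hpi0 := Real.pi_pos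
  induction k, hk using Nat.le_induction with
  | base =>
    have h1 : Real.pi * ((2 : ℕ) + 3 : ℝ) / 2 ≤ 7.875 := by push_cast; linarith
    have h2 : (Real.pi * ((2 : ℕ) + 3 : ℝ) / 2) ^ (2 + 1) ≤ (7.875 : ℝ) ^ (2 + 1) :=
      pow_le_pow_left₀ (by positivity) h1 _
    refine h2.trans ?_
    norm_num [Nat.factorial]
  | succ k hk ih =>
    rcases Nat.eq_or_lt_of_le hk with h2 | h3
    · -- k = 2, prove the case 3 directly
      subst h2
      have h1 : Real.pi * (((2 + 1 : ℕ) : ℝ) + 3) / 2 ≤ 9.45 := by push_cast; linarith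
      have h2 : (Real.pi * (((2 + 1 : ℕ) : ℝ) + 3) / 2) ^ (2 + 1 + 1) ≤ (9.45 : ℝ) ^ (2 + 1 + 1) :=
        pow_le_pow_left₀ (by positivity) h1 _
      refine h2.trans ?_
      norm_num [Nat.factorial]
    · -- step for k ≥ 3
      have hk3 : (3 : ℝ) ≤ (k : ℝ) := by exact_mod_cast h3
      have hpos : (0 : ℝ) < (k : ℝ) + 3 := by positivity
      -- ((k+4)/(k+3))^(k+1) ≤ 3
      have hexp : (((k : ℝ) + 4) / ((k : ℝ) + 3)) ^ (k + 1) ≤ 3 := by
        have h1 : ((k : ℝ) + 4) / ((k : ℝ) + 3) ≤ Real.exp (1 / ((k : ℝ) + 3)) := by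
          have := Real.add_one_le_exp (1 / ((k : ℝ) + 3))
          have e : ((k : ℝ) + 4) / ((k : ℝ) + 3) = 1 / ((k : ℝ) + 3) + 1 := by
            field_simp; ring
          rw [e]; exact this
        have h2 : (((k : ℝ) + 4) / ((k : ℝ) + 3)) ^ (k + 1)
            ≤ Real.exp (1 / ((k : ℝ) + 3)) ^ (k + 1) :=
          pow_le_pow_left₀ (by positivity) h1 _
        have h3' : Real.exp (1 / ((k : ℝ) + 3)) ^ (k + 1)
            = Real.exp (((k : ℝ) + 1) / ((k : ℝ) + 3)) := by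
          rw [← Real.exp_nat_mul]; congr 1; push_cast; field_simp
        have h4 : Real.exp (((k : ℝ) + 1) / ((k : ℝ) + 3)) ≤ Real.exp 1 := by
          apply Real.exp_le_exp.mpr
          rw [div_le_one hpos]; linarith
        have h5 := Real.exp_one_lt_three
        linarith [h2, h3'.le, h4]
      have e1 : Real.pi * (((k + 1 : ℕ) : ℝ) + 3) / 2
          = (Real.pi * ((k : ℝ) + 3) / 2) * (((k : ℝ) + 4) / ((k : ℝ) + 3)) := by
        push_cast; field_simp; ring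
      have hA : 0 ≤ Real.pi * ((k : ℝ) + 3) / 2 := by positivity
      have hB : 0 ≤ ((k : ℝ) + 4) / ((k : ℝ) + 3) := by positivity
      have hfac : (((k + 1 + 2).factorial : ℝ)) = ((k : ℝ) + 3) * ((k + 2).factorial : ℝ) := by
        rw [show k + 1 + 2 = (k + 2) + 1 by ring, Nat.factorial_succ]; push_cast; ring
      rw [e1, hfac, pow_succ, mul_pow, mul_pow]
      have hF : (0 : ℝ) < ((k + 2).factorial : ℝ) := by positivity
      have hlast : 3 * (Real.pi * ((k : ℝ) + 3) / 2 * (((k : ℝ) + 4) / ((k : ℝ) + 3)))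
          ≤ ((k : ℝ) + 3) ^ 2 := by
        have e2 : Real.pi * ((k : ℝ) + 3) / 2 * (((k : ℝ) + 4) / ((k : ℝ) + 3))
            = Real.pi * ((k : ℝ) + 4) / 2 := by field_simp
        rw [e2]
        nlinarith
      have hX : 0 ≤ (Real.pi * ((k : ℝ) + 3) / 2) ^ (k + 1) := by positivity
      have hY : 0 ≤ (((k : ℝ) + 4) / ((k : ℝ) + 3)) ^ (k + 1) := by positivity
      have hZ : 0 ≤ Real.pi * ((k : ℝ) + 3) / 2 * (((k : ℝ) + 4) / ((k : ℝ) + 3)) := by positivity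
      calc (Real.pi * ((k : ℝ) + 3) / 2) ^ (k + 1) * (((k : ℝ) + 4) / ((k : ℝ) + 3)) ^ (k + 1)
            * (Real.pi * ((k : ℝ) + 3) / 2 * (((k : ℝ) + 4) / ((k : ℝ) + 3)))
          ≤ (((k + 2).factorial : ℝ)) ^ 2 * 3
            * (Real.pi * ((k : ℝ) + 3) / 2 * (((k : ℝ) + 4) / ((k : ℝ) + 3))) := by
            apply mul_le_mul_of_nonneg_right _ hZ
            exact mul_le_mul ih hexp hY (by positivity)
        _ = (((k + 2).factorial : ℝ)) ^ 2
            * (3 * (Real.pi * ((k : ℝ) + 3) / 2 * (((k : ℝ) + 4) / ((k : ℝ) + 3)))) := by ring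
        _ ≤ (((k + 2).factorial : ℝ)) ^ 2 * ((k : ℝ) + 3) ^ 2 :=
            mul_le_mul_of_nonneg_left hlast (by positivity)
        _ = ((k : ℝ) + 3) ^ 2 * (((k + 2).factorial : ℝ)) ^ 2 := by ring

/-- Core inequality: `sqrt(pi)^(k+2) * gam (k+2) ^ k ≤ 2^(k+2) * gam (k+1) ^ (k+2)`. -/
theorem core (k : ℕ) :
    Real.sqrt Real.pi ^ (k + 2) * gam (k + 2) ^ k ≤ 2 ^ (k + 2) * gam (k + 1) ^ (k + 2) := by
  have hpi0 := Real.pi_pos
  have hs2 : Real.sqrt Real.pi ^ 2 = Real.pi := Real.sq_sqrt hpi0.le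
  have hs0 : 0 < Real.sqrt Real.pi := Real.sqrt_pos.mpr hpi0
  rcases Nat.lt_or_ge k 2 with hk | hk
  · interval_cases k
    · -- k = 0
      rw [gam_one]
      have : (2 : ℝ) ^ (0 + 2) * (Real.sqrt Real.pi / 2) ^ (0 + 2) = Real.sqrt Real.pi ^ 2 := by
        ring
      rw [this]; simp
    · -- k = 1
      rw [gam_three, gam_two]
      have hpi := Real.pi_lt_d2
      have e : Real.sqrt Real.pi ^ (1 + 2) * (3 * Real.sqrt Real.pi / 4) ^ 1
          = 3 * (Real.sqrt Real.pi ^ 2) ^ 2 / 4 := by ring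
      rw [e, hs2]
      norm_num
      nlinarith
  · -- k ≥ 2
    set G := gam (k + 2) with hG
    set H := gam (k + 1) with hH
    have hGpos : 0 < G := gam_pos _
    have hHpos : 0 < H := gam_pos _
    set P := Real.sqrt Real.pi * ((k + 2).factorial : ℝ) / 2 ^ (k + 2) with hP
    have hGH : G * H = P := by
      have := gam_mul (k + 1)
      simpa [hG, hH, hP] using this
    have hPpos : 0 < P := by rw [← hGH]; positivity
    have hlc : G ^ 2 ≤ (((k : ℝ) + 3) / 2) * H ^ 2 := by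
      have := gam_sq_le (k + 1)
      have e : (((k + 1 : ℕ) : ℝ)) / 2 + 1 = ((k : ℝ) + 3) / 2 := by push_cast; ring
      rw [e] at this
      exact this
    have hnum := num_ineq k hk
    -- G^4 ≤ ((k+3)/2) P^2
    have hG4 : (G ^ 2) ^ 2 ≤ (((k : ℝ) + 3) / 2) * P ^ 2 := by
      calc (G ^ 2) ^ 2 = G ^ 2 * G ^ 2 := by ring
        _ ≤ ((((k : ℝ) + 3) / 2) * H ^ 2) * G ^ 2 :=
            mul_le_mul_of_nonneg_right hlc (by positivity)
        _ = (((k : ℝ) + 3) / 2) * (G * H) ^ 2 := by ring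
        _ = (((k : ℝ) + 3) / 2) * P ^ 2 := by rw [hGH]
    -- multiply the goal by G^(k+2)
    have hmul : Real.sqrt Real.pi ^ (k + 2) * G ^ k * G ^ (k + 2)
        ≤ 2 ^ (k + 2) * H ^ (k + 2) * G ^ (k + 2) := by
      have eL : Real.sqrt Real.pi ^ (k + 2) * G ^ k * G ^ (k + 2)
          = Real.sqrt Real.pi ^ (k + 2) * (G ^ 2) ^ (k + 1) := by ring
      have eR : (2 : ℝ) ^ (k + 2) * H ^ (k + 2) * G ^ (k + 2) = 2 ^ (k + 2) * P ^ (k + 2) := by
        rw [← hGH]; ring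
      rw [eL, eR]
      have hA0 : 0 ≤ Real.sqrt Real.pi ^ (k + 2) * (G ^ 2) ^ (k + 1) := by positivity
      have hB0 : 0 ≤ (2 : ℝ) ^ (k + 2) * P ^ (k + 2) := by positivity
      apply le_of_sq_le_sq _ hB0
      -- squares
      have eA : (Real.sqrt Real.pi ^ (k + 2) * (G ^ 2) ^ (k + 1)) ^ 2
          = Real.pi ^ (k + 2) * ((G ^ 2) ^ 2) ^ (k + 1) := by
        have : (Real.sqrt Real.pi ^ (k + 2) * (G ^ 2) ^ (k + 1)) ^ 2
            = (Real.sqrt Real.pi ^ 2) ^ (k + 2) * ((G ^ 2) ^ 2) ^ (k + 1) := by ring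
        rw [this, hs2]
      have e4 : (4 : ℝ) ^ (k + 2) * P ^ 2 = Real.pi * (((k + 2).factorial : ℝ)) ^ 2 := by
        rw [hP, div_pow, mul_pow, hs2]
        have : ((2 : ℝ) ^ (k + 2)) ^ 2 = 4 ^ (k + 2) := by
          rw [← pow_mul, mul_comm, pow_mul]; norm_num
        rw [this]
        field_simp
      have eB : ((2 : ℝ) ^ (k + 2) * P ^ (k + 2)) ^ 2
          = (P ^ 2) ^ (k + 1) * (Real.pi * (((k + 2).factorial : ℝ)) ^ 2) := by
        rw [← e4]
        have : ((2 : ℝ) ^ (k + 2)) ^ 2 = 4 ^ (k + 2) := by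
          rw [← pow_mul, mul_comm, pow_mul]; norm_num
        calc ((2 : ℝ) ^ (k + 2) * P ^ (k + 2)) ^ 2
            = ((2 : ℝ) ^ (k + 2)) ^ 2 * ((P ^ 2) ^ (k + 1) * P ^ 2) := by
              rw [mul_pow, ← pow_mul P, mul_comm (k + 2) 2, pow_mul P, pow_succ (P ^ 2) (k + 1)]
          _ = (P ^ 2) ^ (k + 1) * (4 ^ (k + 2) * P ^ 2) := by rw [this]; ring
      rw [eA, eB]
      calc Real.pi ^ (k + 2) * ((G ^ 2) ^ 2) ^ (k + 1)
          ≤ Real.pi ^ (k + 2) * ((((k : ℝ) + 3) / 2) * P ^ 2) ^ (k + 1) := by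
            apply mul_le_mul_of_nonneg_left _ (by positivity)
            exact pow_le_pow_left₀ (by positivity) hG4 _
        _ = (P ^ 2) ^ (k + 1) * (Real.pi * (Real.pi * ((k : ℝ) + 3) / 2) ^ (k + 1)) := by
            rw [mul_pow, show Real.pi * ((k : ℝ) + 3) / 2 = Real.pi * (((k : ℝ) + 3) / 2) by ring,
              mul_pow, pow_succ Real.pi (k + 1)]
            ring
        _ ≤ (P ^ 2) ^ (k + 1) * (Real.pi * (((k + 2).factorial : ℝ)) ^ 2) := by
            apply mul_le_mul_of_nonneg_left _ (by positivity)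
            exact mul_le_mul_of_nonneg_left hnum hpi0.le
    exact le_of_mul_le_mul_right hmul (by positivity)

theorem kappa_real (n : ℕ) (hn : 2 ≤ n) :
    (Real.sqrt Real.pi ^ (n - 1) / Real.Gamma (((n - 1 : ℕ) : ℝ) / 2 + 1)) ^ n
      ≤ 2 ^ n * (Real.sqrt Real.pi ^ n / Real.Gamma ((n : ℝ) / 2 + 1)) ^ (n - 2) := by
  obtain ⟨k, rfl⟩ : ∃ k, n = k + 2 := ⟨n - 2, by omega⟩
  have h1 : k + 2 - 1 = k + 1 := by omega
  have h2 : k + 2 - 2 = k := by omega
  rw [h1, h2]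
  change (Real.sqrt Real.pi ^ (k + 1) / gam (k + 1)) ^ (k + 2)
      ≤ 2 ^ (k + 2) * (Real.sqrt Real.pi ^ (k + 2) / gam (k + 2)) ^ k
  have hG : 0 < gam (k + 2) := gam_pos _
  have hH : 0 < gam (k + 1) := gam_pos _
  have hs0 : 0 < Real.sqrt Real.pi := Real.sqrt_pos.mpr Real.pi_pos
  have hc := core k
  rw [div_pow, div_pow, ← mul_div_assoc, div_le_div_iff₀ (by positivity) (by positivity)]
  have hT : 0 < (Real.sqrt Real.pi ^ (k + 2)) ^ k := by positivity
  have e1 : (Real.sqrt Real.pi ^ (k + 1)) ^ (k + 2) * gam (k + 2) ^ k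
      = (Real.sqrt Real.pi ^ (k + 2)) ^ k
        * (Real.sqrt Real.pi ^ (k + 2) * gam (k + 2) ^ k) := by ring
  have e2 : (2 : ℝ) ^ (k + 2) * (Real.sqrt Real.pi ^ (k + 2)) ^ k * gam (k + 1) ^ (k + 2)
      = (Real.sqrt Real.pi ^ (k + 2)) ^ k * (2 ^ (k + 2) * gam (k + 1) ^ (k + 2)) := by ring
  rw [e1, e2]
  exact mul_le_mul_of_nonneg_left hc hT.le

theorem kappa_ball (n : ℕ) (hn : 2 ≤ n) :
    volume (Metric.ball (0 : EuclideanSpace ℝ (Fin (n - 1))) 1) ^ n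
      ≤ 2 ^ n * volume (Metric.ball (0 : EuclideanSpace ℝ (Fin n)) 1) ^ (n - 2) := by
  have : Nonempty (Fin (n - 1)) := ⟨⟨0, by omega⟩⟩
  have : Nonempty (Fin n) := ⟨⟨0, by omega⟩⟩
  have h1 := EuclideanSpace.volume_ball (Fin (n - 1)) (0 : EuclideanSpace ℝ (Fin (n - 1))) 1
  have h2 := EuclideanSpace.volume_ball (Fin n) (0 : EuclideanSpace ℝ (Fin n)) 1
  rw [h1, h2]
  simp only [ENNReal.ofReal_one, one_pow, one_mul, Fintype.card_fin]
  have hk := kappa_real n hn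
  have hpos1 : 0 ≤ Real.sqrt Real.pi ^ (n - 1) / Real.Gamma (((n - 1 : ℕ) : ℝ) / 2 + 1) := by
    apply div_nonneg (by positivity)
    exact (Real.Gamma_pos_of_pos (by positivity)).le
  have hpos2 : 0 ≤ Real.sqrt Real.pi ^ n / Real.Gamma ((n : ℝ) / 2 + 1) := by
    apply div_nonneg (by positivity)
    exact (Real.Gamma_pos_of_pos (by positivity)).le
  rw [← ENNReal.ofReal_pow hpos1, ← ENNReal.ofReal_pow hpos2]
  have h2' : (2 : ENNReal) ^ n = ENNReal.ofReal (2 ^ n) := by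
    rw [ENNReal.ofReal_pow (by norm_num)]; simp
  rw [h2', ← ENNReal.ofReal_mul (by positivity)]
  exact ENNReal.ofReal_le_ofReal hk

end Vale.Agent.Lib.P237.H55
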