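import Mathlib
import Vale.Agent.Lib.P237.helper55.Kappa

/-!
# P237: Petty's constant at most doubles from one dimension to the next

With `kap m = sqrt(pi) ^ m / Gamma (m / 2 + 1)` (the volume of the unit ball of `ℝ ^ m`) and
Petty's constant `c n = kap (n - 1) ^ n / kap n ^ (n - 2)` we prove `c (N + 1) ≤ 2 * c N`, in the
division-free form `kap N ^ (2 N - 1) ≤ 2 * kap (N - 1) ^ N * kap (N + 1) ^ (N - 1)`, written
with `N = k + 1`.  The inequality is strict for `k ≥ 1`.  The proof uses a Kershaw-type bound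
`(2 k + 3) * (Gamma (k / 2 + 1) / Gamma ((k + 1) / 2 + 1)) ^ 2 ≤ 4`.
-/

namespace Vale.Agent.Lib.P237.H55

open MeasureTheory

theorem gam_ratio_step (k : ℕ) :
    gam (k + 2) / gam (k + 3) = (((k : ℝ) + 2) / ((k : ℝ) + 3)) * (gam k / gam (k + 1)) := by
  have h1 := gam_add_two k
  have h2 := gam_add_two (k + 1)
  have e : k + 1 + 2 = k + 3 := by ring
  rw [e] at h2
  rw [h1, h2]
  have hg := gam_pos k
  have hg1 := gam_pos (k + 1)
  push_cast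
  field_simp
  ring

theorem qq_le (k : ℕ) :
    (gam k / gam (k + 1)) ^ 2 ≤ 2 * ((k : ℝ) + 3) / ((k : ℝ) + 2) ^ 2 := by
  have h := gam_sq_le (k + 1)
  rw [gam_add_two k] at h
  have hg := gam_pos k
  have hg1 := gam_pos (k + 1)
  rw [div_pow, div_le_div_iff₀ (by positivity) (by positivity)]
  push_cast at h
  have e1 : gam k ^ 2 * ((k : ℝ) + 2) ^ 2 = 4 * (((k : ℝ) / 2 + 1) * gam k) ^ 2 := by ring
  have e2 : 2 * ((k : ℝ) + 3) * gam (k + 1) ^ 2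
      = 4 * ((((k : ℝ) + 1) / 2 + 1) * gam (k + 1) ^ 2) := by ring
  rw [e1, e2]
  linarith

theorem kershaw_aux (k j : ℕ) :
    (2 * (k : ℝ) + 3) * (gam k / gam (k + 1)) ^ 2
      ≤ (2 * ((k + 2 * j : ℕ) : ℝ) + 3) * (gam (k + 2 * j) / gam (k + 2 * j + 1)) ^ 2 := by
  induction j with
  | zero => simp
  | succ j ih =>
    refine ih.trans ?_
    have e1 : k + 2 * (j + 1) = (k + 2 * j) + 2 := by ring
    have e2 : k + 2 * j + 2 + 1 = (k + 2 * j) + 3 := rfl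
    rw [e1, e2, gam_ratio_step (k + 2 * j)]
    generalize k + 2 * j = m
    generalize gam m / gam (m + 1) = q
    have hq0 : 0 ≤ q ^ 2 := by positivity
    have hm0 : (0 : ℝ) ≤ (m : ℝ) := by positivity
    have key : (2 * (m : ℝ) + 3)
        ≤ (2 * ((m : ℝ) + 2) + 3) * (((m : ℝ) + 2) / ((m : ℝ) + 3)) ^ 2 := by
      rw [div_pow, ← mul_div_assoc, le_div_iff₀ (by positivity)]
      nlinarith [hm0]
    push_cast
    rw [mul_pow]
    calc (2 * (m : ℝ) + 3) * q ^ 2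
        ≤ ((2 * ((m : ℝ) + 2) + 3) * (((m : ℝ) + 2) / ((m : ℝ) + 3)) ^ 2) * q ^ 2 :=
          mul_le_mul_of_nonneg_right key hq0
      _ = (2 * ((m : ℝ) + 2) + 3) * ((((m : ℝ) + 2) / ((m : ℝ) + 3)) ^ 2 * q ^ 2) := by ring

/-- Kershaw-type bound at half-integers. -/
theorem kershaw (k : ℕ) : (2 * (k : ℝ) + 3) * (gam k / gam (k + 1)) ^ 2 ≤ 4 := by
  by_contra hcon
  push Not at hcon
  obtain ⟨j, hj⟩ := exists_nat_gt (1 / ((2 * (k : ℝ) + 3) * (gam k / gam (k + 1)) ^ 2 - 4))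
  have h1 := kershaw_aux k j
  have h2 := qq_le (k + 2 * j)
  have hmk : ((k + 2 * j : ℕ) : ℝ) = (k : ℝ) + 2 * (j : ℝ) := by push_cast; ring
  generalize (2 * (k : ℝ) + 3) * (gam k / gam (k + 1)) ^ 2 = A at hcon hj h1
  have hpos : 0 < A - 4 := by linarith
  generalize k + 2 * j = m at h1 h2 hmk
  have hm0 : (0 : ℝ) ≤ (m : ℝ) := by positivity
  have h3 : (2 * (m : ℝ) + 3) * (2 * ((m : ℝ) + 3) / ((m : ℝ) + 2) ^ 2)
      ≤ 4 + 2 / ((m : ℝ) + 2) := by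
    rw [← mul_div_assoc, div_le_iff₀ (by positivity)]
    have e : (4 + 2 / ((m : ℝ) + 2)) * ((m : ℝ) + 2) ^ 2
        = 4 * ((m : ℝ) + 2) ^ 2 + 2 * ((m : ℝ) + 2) := by
      field_simp
    rw [e]; nlinarith
  have h4 : A ≤ 4 + 2 / ((m : ℝ) + 2) := by
    calc A ≤ (2 * (m : ℝ) + 3) * (gam m / gam (m + 1)) ^ 2 := h1
      _ ≤ (2 * (m : ℝ) + 3) * (2 * ((m : ℝ) + 3) / ((m : ℝ) + 2) ^ 2) :=
          mul_le_mul_of_nonneg_left h2 (by positivity)
      _ ≤ _ := h3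
  have hjpos : (0 : ℝ) < (j : ℝ) := lt_trans (by positivity) hj
  have h5 : 2 / ((m : ℝ) + 2) ≤ 1 / (j : ℝ) := by
    rw [div_le_div_iff₀ (by positivity) hjpos, hmk]
    nlinarith [(Nat.cast_nonneg k : (0 : ℝ) ≤ k)]
  have h6 : 1 / (j : ℝ) < A - 4 := by
    rw [div_lt_iff₀ hjpos]
    rw [div_lt_iff₀ hpos] at hj
    linarith
  linarith

/-- The numerical inequality `pi * ((2k+4)/(2k+3))^(2k) < 2k+3` for `k ≥ 1`. -/
theorem num2 (k : ℕ) (hk : 1 ≤ k) :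
    Real.pi * ((((2 : ℝ) * k + 4) / (2 * k + 3)) ^ 2) ^ k < 2 * (k : ℝ) + 3 := by
  have hpi := Real.pi_lt_d2
  have hpi0 := Real.pi_pos
  rcases Nat.lt_or_ge k 3 with h | h
  · interval_cases k
    · norm_num
      linarith
    · norm_num
      linarith
  · have hk3 : (3 : ℝ) ≤ (k : ℝ) := by exact_mod_cast h
    have hpos : (0 : ℝ) < 2 * (k : ℝ) + 3 := by positivity
    have h1 : ((2 : ℝ) * k + 4) / (2 * k + 3) ≤ Real.exp (1 / (2 * (k : ℝ) + 3)) := by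
      have := Real.add_one_le_exp (1 / (2 * (k : ℝ) + 3))
      have e : ((2 : ℝ) * k + 4) / (2 * k + 3) = 1 / (2 * (k : ℝ) + 3) + 1 := by
        field_simp; ring
      rw [e]; exact this
    have h2 : ((((2 : ℝ) * k + 4) / (2 * k + 3)) ^ 2) ^ k ≤ Real.exp 1 := by
      rw [← pow_mul]
      calc (((2 : ℝ) * k + 4) / (2 * k + 3)) ^ (2 * k)
          ≤ Real.exp (1 / (2 * (k : ℝ) + 3)) ^ (2 * k) :=
            pow_le_pow_left₀ (by positivity) h1 _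
        _ = Real.exp (((2 * k : ℕ) : ℝ) * (1 / (2 * (k : ℝ) + 3))) := by
            rw [← Real.exp_nat_mul]
        _ ≤ Real.exp 1 := by
            apply Real.exp_le_exp.mpr
            push_cast
            rw [mul_one_div, div_le_one hpos]; linarith
    have h3 := Real.exp_one_lt_d9
    have h4 : Real.pi * ((((2 : ℝ) * k + 4) / (2 * k + 3)) ^ 2) ^ k
        ≤ 3.15 * 2.7182818286 :=
      mul_le_mul hpi.le (h2.trans h3.le) (by positivity) (by norm_num)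
    have h5 : (3.15 : ℝ) * 2.7182818286 < 9 := by norm_num
    linarith

/-- Core inequality, strict for `k ≥ 1`. -/
theorem core2 (k : ℕ) (hk : 1 ≤ k) :
    Real.sqrt Real.pi * ((k : ℝ) / 2 + 1) ^ k * gam k ^ (2 * k + 1)
      < 2 * gam (k + 1) ^ (2 * k + 1) := by
  have hpi0 := Real.pi_pos
  have hs2 : Real.sqrt Real.pi ^ 2 = Real.pi := Real.sq_sqrt hpi0.le
  have hs0 : 0 < Real.sqrt Real.pi := Real.sqrt_pos.mpr hpi0
  have hg := gam_pos k
  have hg1 := gam_pos (k + 1)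
  have hK := kershaw k
  have hK' : gam k ^ 2 ≤ (4 / (2 * (k : ℝ) + 3)) * gam (k + 1) ^ 2 := by
    rw [div_pow, ← mul_div_assoc, div_le_iff₀ (by positivity)] at hK
    rw [div_mul_eq_mul_div, le_div_iff₀ (by positivity)]
    linarith
  have hnum := num2 k hk
  apply lt_of_pow_lt_pow_left₀ 2 (by positivity)
  have eX : (Real.sqrt Real.pi * ((k : ℝ) / 2 + 1) ^ k * gam k ^ (2 * k + 1)) ^ 2
      = Real.pi * ((((k : ℝ) / 2 + 1)) ^ 2) ^ k * (gam k ^ 2) ^ (2 * k + 1) := by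
    have h1 : ((((k : ℝ) / 2 + 1)) ^ k) ^ 2 = ((((k : ℝ) / 2 + 1)) ^ 2) ^ k := by
      rw [← pow_mul, ← pow_mul, mul_comm]
    have h2 : (gam k ^ (2 * k + 1)) ^ 2 = (gam k ^ 2) ^ (2 * k + 1) := by
      rw [← pow_mul, ← pow_mul, mul_comm]
    rw [mul_pow, mul_pow, h1, h2, hs2]
  have eY : (2 * gam (k + 1) ^ (2 * k + 1)) ^ 2 = 4 * (gam (k + 1) ^ 2) ^ (2 * k + 1) := by ring
  rw [eX, eY]
  have eR : (((2 : ℝ) * k + 4) / (2 * k + 3)) ^ 2
      = (((k : ℝ) / 2 + 1)) ^ 2 * (4 / (2 * (k : ℝ) + 3)) ^ 2 := by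
    field_simp; ring
  calc Real.pi * ((((k : ℝ) / 2 + 1)) ^ 2) ^ k * (gam k ^ 2) ^ (2 * k + 1)
      ≤ Real.pi * ((((k : ℝ) / 2 + 1)) ^ 2) ^ k
          * ((4 / (2 * (k : ℝ) + 3)) * gam (k + 1) ^ 2) ^ (2 * k + 1) := by
        apply mul_le_mul_of_nonneg_left _ (by positivity)
        exact pow_le_pow_left₀ (by positivity) hK' _
    _ = (Real.pi * ((((2 : ℝ) * k + 4) / (2 * k + 3)) ^ 2) ^ k) * (4 / (2 * (k : ℝ) + 3))
          * (gam (k + 1) ^ 2) ^ (2 * k + 1) := by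
        rw [mul_pow, pow_succ (4 / (2 * (k : ℝ) + 3)) (2 * k),
          pow_mul (4 / (2 * (k : ℝ) + 3)) 2 k, eR, mul_pow]
        ring
    _ < (2 * (k : ℝ) + 3) * (4 / (2 * (k : ℝ) + 3)) * (gam (k + 1) ^ 2) ^ (2 * k + 1) := by
        apply mul_lt_mul_of_pos_right _ (by positivity)
        exact mul_lt_mul_of_pos_right hnum (by positivity)
    _ = 4 * (gam (k + 1) ^ 2) ^ (2 * k + 1) := by
        field_simp

theorem core2_le (k : ℕ) :
    Real.sqrt Real.pi * ((k : ℝ) / 2 + 1) ^ k * gam k ^ (2 * k + 1)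
      ≤ 2 * gam (k + 1) ^ (2 * k + 1) := by
  rcases Nat.eq_zero_or_pos k with h | h
  · subst h
    rw [gam_zero, gam_one]
    simp
    linarith
  · exact (core2 k h).le

/-- Rewriting of the two sides in terms of `gam`. -/
theorem kappa_step_forms (k : ℕ) :
    (Real.sqrt Real.pi ^ (k + 1) / gam (k + 1)) ^ (2 * k + 1)
        = ((Real.sqrt Real.pi ^ k) ^ (k + 1) * (Real.sqrt Real.pi ^ (k + 2)) ^ k
            * Real.sqrt Real.pi) / gam (k + 1) ^ (2 * k + 1) ∧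
    2 * (Real.sqrt Real.pi ^ k / gam k) ^ (k + 1)
          * (Real.sqrt Real.pi ^ (k + 2) / gam (k + 2)) ^ k
        = (2 * ((Real.sqrt Real.pi ^ k) ^ (k + 1) * (Real.sqrt Real.pi ^ (k + 2)) ^ k))
            / (((k : ℝ) / 2 + 1) ^ k * gam k ^ (2 * k + 1)) := by
  have hg := gam_pos k
  have hg1 := gam_pos (k + 1)
  constructor
  · rw [div_pow]
    congr 1
    ring
  · rw [gam_add_two, div_pow, div_pow, mul_pow]
    have hc : (0 : ℝ) < (k : ℝ) / 2 + 1 := by positivity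
    field_simp
    ring

theorem kappa_step_real (k : ℕ) :
    (Real.sqrt Real.pi ^ (k + 1) / Real.Gamma (((k + 1 : ℕ) : ℝ) / 2 + 1)) ^ (2 * k + 1)
      ≤ 2 * (Real.sqrt Real.pi ^ k / Real.Gamma ((k : ℝ) / 2 + 1)) ^ (k + 1)
          * (Real.sqrt Real.pi ^ (k + 2) / Real.Gamma (((k + 2 : ℕ) : ℝ) / 2 + 1)) ^ k := by
  change (Real.sqrt Real.pi ^ (k + 1) / gam (k + 1)) ^ (2 * k + 1)
      ≤ 2 * (Real.sqrt Real.pi ^ k / gam k) ^ (k + 1)
          * (Real.sqrt Real.pi ^ (k + 2) / gam (k + 2)) ^ k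
  have hg := gam_pos k
  have hg1 := gam_pos (k + 1)
  have hs0 : 0 < Real.sqrt Real.pi := Real.sqrt_pos.mpr Real.pi_pos
  obtain ⟨e1, e2⟩ := kappa_step_forms k
  rw [e1, e2, div_le_div_iff₀ (by positivity) (by positivity)]
  have hT : 0 < (Real.sqrt Real.pi ^ k) ^ (k + 1) * (Real.sqrt Real.pi ^ (k + 2)) ^ k := by
    positivity
  have hc := core2_le k
  calc (Real.sqrt Real.pi ^ k) ^ (k + 1) * (Real.sqrt Real.pi ^ (k + 2)) ^ k
          * Real.sqrt Real.pi * (((k : ℝ) / 2 + 1) ^ k * gam k ^ (2 * k + 1))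
      = ((Real.sqrt Real.pi ^ k) ^ (k + 1) * (Real.sqrt Real.pi ^ (k + 2)) ^ k)
          * (Real.sqrt Real.pi * ((k : ℝ) / 2 + 1) ^ k * gam k ^ (2 * k + 1)) := by ring
    _ ≤ ((Real.sqrt Real.pi ^ k) ^ (k + 1) * (Real.sqrt Real.pi ^ (k + 2)) ^ k)
          * (2 * gam (k + 1) ^ (2 * k + 1)) := mul_le_mul_of_nonneg_left hc hT.le
    _ = 2 * ((Real.sqrt Real.pi ^ k) ^ (k + 1) * (Real.sqrt Real.pi ^ (k + 2)) ^ k)
          * gam (k + 1) ^ (2 * k + 1) := by ring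

theorem kappa_step_real_lt (k : ℕ) (hk : 1 ≤ k) :
    (Real.sqrt Real.pi ^ (k + 1) / Real.Gamma (((k + 1 : ℕ) : ℝ) / 2 + 1)) ^ (2 * k + 1)
      < 2 * (Real.sqrt Real.pi ^ k / Real.Gamma ((k : ℝ) / 2 + 1)) ^ (k + 1)
          * (Real.sqrt Real.pi ^ (k + 2) / Real.Gamma (((k + 2 : ℕ) : ℝ) / 2 + 1)) ^ k := by
  change (Real.sqrt Real.pi ^ (k + 1) / gam (k + 1)) ^ (2 * k + 1)
      < 2 * (Real.sqrt Real.pi ^ k / gam k) ^ (k + 1)
          * (Real.sqrt Real.pi ^ (k + 2) / gam (k + 2)) ^ k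
  have hg := gam_pos k
  have hg1 := gam_pos (k + 1)
  have hs0 : 0 < Real.sqrt Real.pi := Real.sqrt_pos.mpr Real.pi_pos
  obtain ⟨e1, e2⟩ := kappa_step_forms k
  rw [e1, e2, div_lt_div_iff₀ (by positivity) (by positivity)]
  have hT : 0 < (Real.sqrt Real.pi ^ k) ^ (k + 1) * (Real.sqrt Real.pi ^ (k + 2)) ^ k := by
    positivity
  have hc := core2 k hk
  calc (Real.sqrt Real.pi ^ k) ^ (k + 1) * (Real.sqrt Real.pi ^ (k + 2)) ^ k
          * Real.sqrt Real.pi * (((k : ℝ) / 2 + 1) ^ k * gam k ^ (2 * k + 1))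
      = ((Real.sqrt Real.pi ^ k) ^ (k + 1) * (Real.sqrt Real.pi ^ (k + 2)) ^ k)
          * (Real.sqrt Real.pi * ((k : ℝ) / 2 + 1) ^ k * gam k ^ (2 * k + 1)) := by ring
    _ < ((Real.sqrt Real.pi ^ k) ^ (k + 1) * (Real.sqrt Real.pi ^ (k + 2)) ^ k)
          * (2 * gam (k + 1) ^ (2 * k + 1)) := mul_lt_mul_of_pos_left hc hT
    _ = 2 * ((Real.sqrt Real.pi ^ k) ^ (k + 1) * (Real.sqrt Real.pi ^ (k + 2)) ^ k)
          * gam (k + 1) ^ (2 * k + 1) := by ring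

theorem kappa_step_ball (k : ℕ) (hk : 1 ≤ k) :
    volume (Metric.ball (0 : EuclideanSpace ℝ (Fin (k + 1))) 1) ^ (2 * k + 1)
      ≤ 2 * volume (Metric.ball (0 : EuclideanSpace ℝ (Fin k)) 1) ^ (k + 1)
          * volume (Metric.ball (0 : EuclideanSpace ℝ (Fin (k + 2))) 1) ^ k := by
  have : Nonempty (Fin k) := ⟨⟨0, by omega⟩⟩
  have h0 := EuclideanSpace.volume_ball (Fin k) (0 : EuclideanSpace ℝ (Fin k)) 1
  have h1 := EuclideanSpace.volume_ball (Fin (k + 1)) (0 : EuclideanSpace ℝ (Fin (k + 1))) 1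
  have h2 := EuclideanSpace.volume_ball (Fin (k + 2)) (0 : EuclideanSpace ℝ (Fin (k + 2))) 1
  rw [h0, h1, h2]
  simp only [ENNReal.ofReal_one, one_pow, one_mul, Fintype.card_fin]
  have hr := kappa_step_real k
  have hp0 : 0 ≤ Real.sqrt Real.pi ^ k / Real.Gamma ((k : ℝ) / 2 + 1) := by
    apply div_nonneg (by positivity)
    exact (Real.Gamma_pos_of_pos (by positivity)).le
  have hp1 : 0 ≤ Real.sqrt Real.pi ^ (k + 1) / Real.Gamma (((k + 1 : ℕ) : ℝ) / 2 + 1) := by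
    apply div_nonneg (by positivity)
    exact (Real.Gamma_pos_of_pos (by positivity)).le
  have hp2 : 0 ≤ Real.sqrt Real.pi ^ (k + 2) / Real.Gamma (((k + 2 : ℕ) : ℝ) / 2 + 1) := by
    apply div_nonneg (by positivity)
    exact (Real.Gamma_pos_of_pos (by positivity)).le
  rw [← ENNReal.ofReal_pow hp0, ← ENNReal.ofReal_pow hp1, ← ENNReal.ofReal_pow hp2]
  have h2' : (2 : ENNReal) = ENNReal.ofReal 2 := by simp
  rw [h2', ← ENNReal.ofReal_mul (by norm_num), ← ENNReal.ofReal_mul (by positivity)]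
  exact ENNReal.ofReal_le_ofReal hr

theorem kappa_step_ball_lt (k : ℕ) (hk : 1 ≤ k) :
    volume (Metric.ball (0 : EuclideanSpace ℝ (Fin (k + 1))) 1) ^ (2 * k + 1)
      < 2 * volume (Metric.ball (0 : EuclideanSpace ℝ (Fin k)) 1) ^ (k + 1)
          * volume (Metric.ball (0 : EuclideanSpace ℝ (Fin (k + 2))) 1) ^ k := by
  have : Nonempty (Fin k) := ⟨⟨0, by omega⟩⟩
  have h0 := EuclideanSpace.volume_ball (Fin k) (0 : EuclideanSpace ℝ (Fin k)) 1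
  have h1 := EuclideanSpace.volume_ball (Fin (k + 1)) (0 : EuclideanSpace ℝ (Fin (k + 1))) 1
  have h2 := EuclideanSpace.volume_ball (Fin (k + 2)) (0 : EuclideanSpace ℝ (Fin (k + 2))) 1
  rw [h0, h1, h2]
  simp only [ENNReal.ofReal_one, one_pow, one_mul, Fintype.card_fin]
  have hr := kappa_step_real_lt k hk
  have hg0 : 0 < Real.Gamma ((k : ℝ) / 2 + 1) := Real.Gamma_pos_of_pos (by positivity)
  have hg1 : 0 < Real.Gamma (((k + 1 : ℕ) : ℝ) / 2 + 1) := Real.Gamma_pos_of_pos (by positivity)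
  have hg2 : 0 < Real.Gamma (((k + 2 : ℕ) : ℝ) / 2 + 1) := Real.Gamma_pos_of_pos (by positivity)
  have hs0 : 0 < Real.sqrt Real.pi := Real.sqrt_pos.mpr Real.pi_pos
  have hp0 : 0 < Real.sqrt Real.pi ^ k / Real.Gamma ((k : ℝ) / 2 + 1) := by positivity
  have hp1 : 0 < Real.sqrt Real.pi ^ (k + 1) / Real.Gamma (((k + 1 : ℕ) : ℝ) / 2 + 1) := by
    positivity
  have hp2 : 0 < Real.sqrt Real.pi ^ (k + 2) / Real.Gamma (((k + 2 : ℕ) : ℝ) / 2 + 1) := by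
    positivity
  rw [← ENNReal.ofReal_pow hp0.le, ← ENNReal.ofReal_pow hp1.le, ← ENNReal.ofReal_pow hp2.le]
  have h2' : (2 : ENNReal) = ENNReal.ofReal 2 := by simp
  rw [h2', ← ENNReal.ofReal_mul (by norm_num), ← ENNReal.ofReal_mul (by positivity)]
  exact (ENNReal.ofReal_lt_ofReal_iff (by positivity)).mpr hr

end Vale.Agent.Lib.P237.H55
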