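import Mathlib
import Vale.Agent.Lib.P237.helper55.KappaStep

/-!
# P237: Petty's constant is submultiplicative

With `kap m = sqrt(pi) ^ m / Gamma (m / 2 + 1)` (the volume of the unit ball of `ℝ ^ m`) and
Petty's constant `pettyC n = kap (n - 1) ^ n * kap n ^ 2 / kap n ^ n` (so `pettyC 0 = 1`,
`pettyC 1 = 2`, `pettyC 2 = 4` and `pettyC n = kap (n - 1) ^ n / kap n ^ (n - 2)` for `n ≥ 2`)
we prove `pettyC (a + b) ≤ pettyC a * pettyC b`.  The ratios `pettyC (k + 2) / pettyC (k + 1)`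
are nonincreasing in `k`, by the Kershaw-type bound of `KappaStep`.
-/

namespace Vale.Agent.Lib.P237.H55

/-- The volume of the unit ball of `ℝ ^ m`, as a real number. -/
noncomputable def kap (m : ℕ) : ℝ := Real.sqrt Real.pi ^ m / gam m

/-- Petty's constant `kap (n - 1) ^ n * kap n ^ (2 - n)`. -/
noncomputable def pettyC (n : ℕ) : ℝ := kap (n - 1) ^ n * kap n ^ 2 / kap n ^ n

/-- The ratio `pettyC (k + 2) / pettyC (k + 1)`. -/
noncomputable def rho (k : ℕ) : ℝ :=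
  Real.sqrt Real.pi * ((k : ℝ) / 2 + 1) ^ k * (gam k / gam (k + 1)) ^ (2 * k + 1)

theorem kap_pos (m : ℕ) : 0 < kap m :=
  div_pos (pow_pos (Real.sqrt_pos.mpr Real.pi_pos) _) (gam_pos m)

theorem kap_eq (m : ℕ) :
    kap m = Real.sqrt Real.pi ^ m / Real.Gamma ((m : ℝ) / 2 + 1) := rfl

theorem pettyC_pos (n : ℕ) : 0 < pettyC n := by
  have h1 := kap_pos (n - 1)
  have h2 := kap_pos n
  unfold pettyC
  positivity

theorem rho_pos (k : ℕ) : 0 < rho k := by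
  have h1 := gam_pos k
  have h2 := gam_pos (k + 1)
  have hs : 0 < Real.sqrt Real.pi := Real.sqrt_pos.mpr Real.pi_pos
  unfold rho
  positivity

theorem gam_ratio_mul (k : ℕ) :
    (gam k / gam (k + 1)) * (gam (k + 1) / gam (k + 2)) = 1 / ((k : ℝ) / 2 + 1) := by
  have h1 := gam_pos k
  have h2 := gam_pos (k + 1)
  rw [gam_add_two]
  field_simp

theorem rho_aux1 (s c c' r1 : ℝ) (k : ℕ) (hc : c ≠ 0) :
    s * c' ^ (k + 1) * r1 ^ (2 * (k + 1) + 1) * r1 ^ (2 * k + 1)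
      = s * (c * c' * (r1 ^ 2) ^ 2) ^ (k + 1) / c ^ (k + 1) := by
  rw [mul_pow, mul_pow]
  field_simp
  ring

theorem rho_aux2 (s c r0 r1 : ℝ) (k : ℕ) (hc : c ≠ 0) (h : r0 * r1 = 1 / c) :
    s * c ^ k * r0 ^ (2 * k + 1) * r1 ^ (2 * k + 1) = s / c ^ (k + 1) := by
  have h1 : r0 ^ (2 * k + 1) * r1 ^ (2 * k + 1) = (1 / c) ^ (2 * k + 1) := by
    rw [← mul_pow, h]
  calc s * c ^ k * r0 ^ (2 * k + 1) * r1 ^ (2 * k + 1)
      = s * c ^ k * (r0 ^ (2 * k + 1) * r1 ^ (2 * k + 1)) := by ring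
    _ = s * c ^ k * (1 / c) ^ (2 * k + 1) := by rw [h1]
    _ = s / c ^ (k + 1) := by
        rw [one_div, inv_pow]
        field_simp
        ring

/-- The ratios are nonincreasing. -/
theorem rho_succ_le (k : ℕ) : rho (k + 1) ≤ rho k := by
  have hK := kershaw (k + 1)
  have hg0 := gam_pos k
  have hg1 := gam_pos (k + 1)
  have hg2 := gam_pos (k + 2)
  have hs : 0 < Real.sqrt Real.pi := Real.sqrt_pos.mpr Real.pi_pos
  have hr0pos : 0 < gam k / gam (k + 1) := div_pos hg0 hg1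
  have hr1pos : 0 < gam (k + 1) / gam (k + 2) := div_pos hg1 hg2
  have hc : (0 : ℝ) < (k : ℝ) / 2 + 1 := by positivity
  have hmul := gam_ratio_mul k
  have hk0 : (0 : ℝ) ≤ (k : ℝ) := Nat.cast_nonneg k
  have e12 : k + 1 + 1 = k + 2 := rfl
  rw [e12] at hK
  generalize hr0 : gam k / gam (k + 1) = r0 at hr0pos hmul
  generalize hr1 : gam (k + 1) / gam (k + 2) = r1 at hr1pos hmul hK
  have h1 : ((k : ℝ) / 2 + 1) * (((k + 1 : ℕ) : ℝ) / 2 + 1) * (r1 ^ 2) ^ 2 ≤ 1 := by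
    push_cast at hK ⊢
    have hr1sq : r1 ^ 2 ≤ 4 / (2 * (k : ℝ) + 5) := by
      rw [le_div_iff₀ (by positivity)]
      nlinarith [hK]
    have hr1sq0 : 0 ≤ r1 ^ 2 := by positivity
    have h2 : (r1 ^ 2) ^ 2 ≤ (4 / (2 * (k : ℝ) + 5)) ^ 2 := pow_le_pow_left₀ hr1sq0 hr1sq 2
    have h3 : ((k : ℝ) / 2 + 1) * (((k : ℝ) + 1) / 2 + 1) * (4 / (2 * (k : ℝ) + 5)) ^ 2 ≤ 1 := by
      rw [div_pow, ← mul_div_assoc, div_le_one (by positivity)]
      nlinarith [hk0]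
    calc ((k : ℝ) / 2 + 1) * (((k : ℝ) + 1) / 2 + 1) * (r1 ^ 2) ^ 2
        ≤ ((k : ℝ) / 2 + 1) * (((k : ℝ) + 1) / 2 + 1) * (4 / (2 * (k : ℝ) + 5)) ^ 2 :=
          mul_le_mul_of_nonneg_left h2 (by positivity)
      _ ≤ 1 := h3
  have h0 : 0 ≤ ((k : ℝ) / 2 + 1) * (((k + 1 : ℕ) : ℝ) / 2 + 1) * (r1 ^ 2) ^ 2 := by positivity
  have e1 : rho (k + 1) * r1 ^ (2 * k + 1)
      = Real.sqrt Real.pi
          * (((k : ℝ) / 2 + 1) * (((k + 1 : ℕ) : ℝ) / 2 + 1) * (r1 ^ 2) ^ 2) ^ (k + 1)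
          / ((k : ℝ) / 2 + 1) ^ (k + 1) := by
    unfold rho
    rw [e12, hr1]
    exact rho_aux1 _ _ _ _ k hc.ne'
  have e2 : rho k * r1 ^ (2 * k + 1) = Real.sqrt Real.pi / ((k : ℝ) / 2 + 1) ^ (k + 1) := by
    unfold rho
    rw [hr0]
    exact rho_aux2 _ _ _ _ k hc.ne' hmul
  have h4 : rho (k + 1) * r1 ^ (2 * k + 1) ≤ rho k * r1 ^ (2 * k + 1) := by
    rw [e1, e2]
    apply div_le_div_of_nonneg_right _ (by positivity)
    calc Real.sqrt Real.pi
          * (((k : ℝ) / 2 + 1) * (((k + 1 : ℕ) : ℝ) / 2 + 1) * (r1 ^ 2) ^ 2) ^ (k + 1)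
        ≤ Real.sqrt Real.pi * 1 ^ (k + 1) :=
          mul_le_mul_of_nonneg_left (pow_le_pow_left₀ h0 h1 _) hs.le
      _ = Real.sqrt Real.pi := by simp
  exact le_of_mul_le_mul_right h4 (by positivity)

theorem rho_antitone : Antitone rho := antitone_nat_of_succ_le rho_succ_le

theorem rho_le_two (k : ℕ) : rho k ≤ 2 := by
  have h := core2_le k
  have hg0 := gam_pos k
  have hg1 := gam_pos (k + 1)
  unfold rho
  rw [div_pow, ← mul_div_assoc, div_le_iff₀ (by positivity)]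
  exact h

theorem pettyC_aux (s g0 g1 c : ℝ) (k : ℕ) (hs : 0 < s) (hg0 : 0 < g0) (hg1 : 0 < g1)
    (hc : 0 < c) :
    (s ^ (k + 1) / g1) ^ (k + 2) * (s ^ (k + 2) / (c * g0)) ^ 2 / (s ^ (k + 2) / (c * g0)) ^ (k + 2)
      = ((s ^ k / g0) ^ (k + 1) * (s ^ (k + 1) / g1) ^ 2 / (s ^ (k + 1) / g1) ^ (k + 1))
          * (s * c ^ k * (g0 / g1) ^ (2 * k + 1)) := by
  simp only [div_pow, mul_pow]
  field_simp
  ring

theorem pettyC_succ_succ (k : ℕ) : pettyC (k + 2) = pettyC (k + 1) * rho k := by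
  have hs : 0 < Real.sqrt Real.pi := Real.sqrt_pos.mpr Real.pi_pos
  have hc : (0 : ℝ) < (k : ℝ) / 2 + 1 := by positivity
  unfold pettyC rho kap
  have e1 : k + 2 - 1 = k + 1 := rfl
  have e2 : k + 1 - 1 = k := rfl
  rw [e1, e2, gam_add_two k]
  exact pettyC_aux _ _ _ _ k hs (gam_pos k) (gam_pos (k + 1)) hc

theorem pettyC_zero : pettyC 0 = 1 := by
  unfold pettyC kap
  simp [gam_zero]

theorem pettyC_one : pettyC 1 = 2 := by
  have hs : 0 < Real.sqrt Real.pi := Real.sqrt_pos.mpr Real.pi_pos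
  unfold pettyC kap
  have e : (1 : ℕ) - 1 = 0 := rfl
  rw [e, gam_zero, gam_one]
  field_simp

theorem rho_zero : rho 0 = 2 := by
  have hs : 0 < Real.sqrt Real.pi := Real.sqrt_pos.mpr Real.pi_pos
  unfold rho
  have e : gam (0 + 1) = Real.sqrt Real.pi / 2 := gam_one
  rw [gam_zero, e]
  simp
  field_simp

theorem pettyC_two : pettyC 2 = 4 := by
  have h : pettyC 2 = pettyC 1 * rho 0 := pettyC_succ_succ 0
  rw [h, pettyC_one, rho_zero]
  norm_num

/-- For `n ≥ 2`, `pettyC n` is `kap (n - 1) ^ n / kap n ^ (n - 2)`. -/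
theorem pettyC_eq (n : ℕ) (hn : 2 ≤ n) : pettyC n = kap (n - 1) ^ n / kap n ^ (n - 2) := by
  have h2 := kap_pos n
  have h1 := kap_pos (n - 1)
  unfold pettyC
  obtain ⟨m, rfl⟩ : ∃ m, n = m + 2 := ⟨n - 2, by omega⟩
  have e : m + 2 - 2 = m := by omega
  rw [e, pow_add (kap (m + 2)) m 2]
  field_simp

/-- Petty's constant is submultiplicative. -/
theorem pettyC_add_le_aux (a b : ℕ) : pettyC (a + b + 2) ≤ pettyC (a + 1) * pettyC (b + 1) := by
  induction b with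
  | zero =>
    rw [Nat.add_zero, pettyC_succ_succ, show (0 : ℕ) + 1 = 1 from rfl, pettyC_one]
    exact mul_le_mul_of_nonneg_left (rho_le_two a) (pettyC_pos _).le
  | succ b ih =>
    have e1 : a + (b + 1) + 2 = (a + b + 1) + 2 := by ring
    have e2 : a + b + 1 + 1 = a + b + 2 := rfl
    rw [e1, pettyC_succ_succ (a + b + 1), e2, pettyC_succ_succ b]
    have h1 : rho (a + b + 1) ≤ rho b := rho_antitone (by omega)
    calc pettyC (a + b + 2) * rho (a + b + 1)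
        ≤ (pettyC (a + 1) * pettyC (b + 1)) * rho b :=
          mul_le_mul ih h1 (rho_pos _).le (mul_pos (pettyC_pos _) (pettyC_pos _)).le
      _ = pettyC (a + 1) * (pettyC (b + 1) * rho b) := by ring

theorem pettyC_add_le (a b : ℕ) : pettyC (a + b) ≤ pettyC a * pettyC b := by
  rcases Nat.eq_zero_or_pos a with ha | ha
  · subst ha
    rw [Nat.zero_add, pettyC_zero, one_mul]
  rcases Nat.eq_zero_or_pos b with hb | hb
  · subst hb
    rw [Nat.add_zero, pettyC_zero, mul_one]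
  obtain ⟨a', rfl⟩ : ∃ a', a = a' + 1 := ⟨a - 1, by omega⟩
  obtain ⟨b', rfl⟩ : ∃ b', b = b' + 1 := ⟨b - 1, by omega⟩
  have e : a' + 1 + (b' + 1) = a' + b' + 2 := by ring
  rw [e]
  exact pettyC_add_le_aux a' b'

end Vale.Agent.Lib.P237.H55
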