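import Mathlib
import Vale.Agent.Lib.P237.helper98.Bright
import Vale.Agent.Lib.P237.helper55.BrightHom
import Vale.Agent.Lib.P237.helper55.KappaProd

/-!
# P237: projection bodies of products of compact convex sets

For compact convex sets `D₁ ⊆ V₁`, `D₂ ⊆ V₂` in finite-dimensional spaces with Haar measures
`μ₁`, `μ₂`, the brightness of the product satisfies
`bright (D₁ × D₂) (u, v) ≥ μ₂ D₂ * bright D₁ u + μ₁ D₁ * bright D₂ v`, so the projection body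
of `D₁ × D₂` contains `(μ₂ D₂ • pbody D₁) × (μ₁ D₁ • pbody D₂)`.  Together with the
submultiplicativity of Petty's constant this shows that Petty's inequality passes from two
compact convex sets to their product.
-/

open MeasureTheory Set
open scoped Pointwise

namespace Vale.Agent.Lib.P237.H55

open Vale.Agent.Lib.P237

section Prod

variable {V₁ : Type*} [NormedAddCommGroup V₁] [NormedSpace ℝ V₁] [FiniteDimensional ℝ V₁]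
  [MeasurableSpace V₁] [BorelSpace V₁]
variable {V₂ : Type*} [NormedAddCommGroup V₂] [NormedSpace ℝ V₂] [FiniteDimensional ℝ V₂]
  [MeasurableSpace V₂] [BorelSpace V₂]

theorem prod_sweep_ge2 (μ₁ : Measure V₁) [μ₁.IsAddHaarMeasure] (μ₂ : Measure V₂)
    [μ₂.IsAddHaarMeasure] (D₁ : Set V₁) (hD₁ : IsCompact D₁) (hD₁v : Convex ℝ D₁)
    (D₂ : Set V₂) (hD₂ : IsCompact D₂) (hD₂v : Convex ℝ D₂) (u : V₁) (v : V₂) :
    μ₂ D₂ * μ₁ (D₁ + segment ℝ 0 u) + ENNReal.ofReal (bright μ₂ D₂ v) * μ₁ D₁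
      ≤ (μ₁.prod μ₂) (D₁ ×ˢ D₂ + segment ℝ (0 : V₁ × V₂) (u, v)) := by
  set S : Set (V₁ × V₂) := D₁ ×ˢ D₂ + segment ℝ (0 : V₁ × V₂) (u, v) with hSdef
  have hS : IsCompact S := (hD₁.prod hD₂).add (isCompact_seg' _ _)
  set G : Set (V₁ × ℝ) := {p | p.2 ∈ Icc (0:ℝ) 1 ∧ p.1 - p.2 • u ∈ D₁} with hGdef
  have hGc : IsClosed G := by
    have h1 : IsClosed {p : V₁ × ℝ | p.2 ∈ Icc (0:ℝ) 1} := isClosed_Icc.preimage continuous_snd
    have h2 : IsClosed {p : V₁ × ℝ | p.1 - p.2 • u ∈ D₁} :=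
      hD₁.isClosed.preimage (by fun_prop)
    exact h1.inter h2
  have hG : MeasurableSet G := hGc.measurableSet
  have hE : MeasurableSet (D₁ + segment ℝ 0 u) := (hD₁.add (isCompact_seg' _ _)).measurableSet
  have hb0 : 0 ≤ bright μ₂ D₂ v := bright_nonneg μ₂ D₂ hD₂ v
  have hpt : ∀ x : V₁, (D₁ + segment ℝ 0 u).indicator (fun _ => μ₂ D₂) x
      + ENNReal.ofReal (bright μ₂ D₂ v) * volume (Prod.mk x ⁻¹' G) ≤ μ₂ (Prod.mk x ⁻¹' S) := by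
    intro x
    by_cases hx : (Prod.mk x ⁻¹' G).Nonempty
    · have hxE : x ∈ D₁ + segment ℝ 0 u := by
        obtain ⟨t, ⟨ht0, ht1⟩, htD⟩ := hx
        exact ⟨x - t • u, htD, t • u, smul_mem_seg _ t ht0 ht1, by simp⟩
      rw [indicator_of_mem hxE]
      have hΛc : IsCompact (Prod.mk x ⁻¹' G) := by
        have e : Prod.mk x ⁻¹' G = Icc (0:ℝ) 1 ∩ (fun t : ℝ => x - t • u) ⁻¹' D₁ := by
          ext t
          rfl
        rw [e]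
        exact isCompact_Icc.inter_right (hD₁.isClosed.preimage (by fun_prop))
      have hαm : sInf (Prod.mk x ⁻¹' G) ∈ Prod.mk x ⁻¹' G := hΛc.sInf_mem hx
      have hβm : sSup (Prod.mk x ⁻¹' G) ∈ Prod.mk x ⁻¹' G := hΛc.sSup_mem hx
      have hsubI : Prod.mk x ⁻¹' G ⊆ Icc (sInf (Prod.mk x ⁻¹' G)) (sSup (Prod.mk x ⁻¹' G)) :=
        fun t ht => ⟨csInf_le hΛc.bddBelow ht, le_csSup hΛc.bddAbove ht⟩
      generalize sInf (Prod.mk x ⁻¹' G) = α at hαm hsubI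
      generalize sSup (Prod.mk x ⁻¹' G) = β at hβm hsubI
      have hαβ : α ≤ β := (hsubI hαm).2
      have hvol : volume (Prod.mk x ⁻¹' G) ≤ ENNReal.ofReal (β - α) := by
        calc volume (Prod.mk x ⁻¹' G) ≤ volume (Icc α β) := measure_mono hsubI
          _ = ENNReal.ofReal (β - α) := Real.volume_Icc
      have hsub : (α • v) +ᵥ (D₂ + segment ℝ 0 ((β - α) • v)) ⊆ Prod.mk x ⁻¹' S := by
        intro y hy
        rw [mem_vadd_sweep_iff D₂ v α (β - α) (by linarith)] at hy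
        obtain ⟨a, hαa, haβ, hyD⟩ := hy
        have haβ' : a ≤ β := by linarith
        obtain ⟨⟨hα0, hα1⟩, hαD⟩ := hαm
        obtain ⟨⟨hβ0, hβ1⟩, hβD⟩ := hβm
        have haD : x - a • u ∈ D₁ := by
          rcases eq_or_lt_of_le hαβ with h | h
          · have haα : a = α := le_antisymm (by rw [h]; exact haβ') hαa
            rw [haα]; exact hαD
          · have hba : 0 < β - α := by linarith
            have hl0 : 0 ≤ (a - α) / (β - α) := div_nonneg (by linarith) hba.le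
            have hl1 : 0 ≤ 1 - (a - α) / (β - α) := by
              rw [sub_nonneg, div_le_one hba]; linarith
            have hmem := hD₁v hαD hβD hl1 hl0 (by ring)
            have hl : (1 - (a - α) / (β - α)) * α + (a - α) / (β - α) * β = a := by
              field_simp; ring
            have e : (1 - (a - α) / (β - α)) • (x - α • u) + ((a - α) / (β - α)) • (x - β • u)
                = x - ((1 - (a - α) / (β - α)) * α + (a - α) / (β - α) * β) • u := by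
              module
            rw [e, hl] at hmem
            exact hmem
        show (x, y) ∈ S
        refine ⟨(x - a • u, y - a • v), ⟨haD, hyD⟩, a • (u, v),
          smul_mem_seg _ a (by linarith) (by linarith), ?_⟩
        ext <;> simp
      calc μ₂ D₂ + ENNReal.ofReal (bright μ₂ D₂ v) * volume (Prod.mk x ⁻¹' G)
          ≤ μ₂ D₂ + ENNReal.ofReal (bright μ₂ D₂ v) * ENNReal.ofReal (β - α) := by gcongr
        _ = μ₂ D₂ + ENNReal.ofReal (bright μ₂ D₂ ((β - α) • v)) := by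
            rw [bright_smul μ₂ D₂ hD₂ hD₂v v (β - α) (by linarith),
              ENNReal.ofReal_mul (by linarith : (0:ℝ) ≤ β - α), mul_comm]
        _ = μ₂ (D₂ + segment ℝ 0 ((β - α) • v)) := (measure_sweep_eq μ₂ D₂ hD₂ _).symm
        _ = μ₂ ((α • v) +ᵥ (D₂ + segment ℝ 0 ((β - α) • v))) := (measure_vadd _ _ _).symm
        _ ≤ μ₂ (Prod.mk x ⁻¹' S) := measure_mono hsub
    · rw [not_nonempty_iff_eq_empty] at hx
      rw [hx, measure_empty, mul_zero, add_zero]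
      by_cases hxE : x ∈ D₁ + segment ℝ 0 u
      · exfalso
        obtain ⟨d, hd, w, hw, rfl⟩ := hxE
        rw [segment_eq_image] at hw
        obtain ⟨t, ht, rfl⟩ := hw
        have : t ∈ Prod.mk (d + ((1 - t) • (0:V₁) + t • u)) ⁻¹' G := by
          refine ⟨ht, ?_⟩
          show d + ((1 - t) • (0:V₁) + t • u) - t • u ∈ D₁
          simpa using hd
        rw [hx] at this
        exact this
      · rw [indicator_of_notMem hxE]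
        exact bot_le
  have hGint : ∫⁻ x, volume (Prod.mk x ⁻¹' G) ∂μ₁ = μ₁ D₁ := by
    rw [← Measure.prod_apply hG, Measure.prod_apply_symm hG]
    have e : ∀ t : ℝ, μ₁ ((fun x : V₁ => (x, t)) ⁻¹' G)
        = (Icc (0:ℝ) 1).indicator (fun _ => μ₁ D₁) t := by
      intro t
      by_cases ht : t ∈ Icc (0:ℝ) 1
      · rw [indicator_of_mem ht]
        have e2 : (fun x : V₁ => (x, t)) ⁻¹' G = (fun x : V₁ => x + -(t • u)) ⁻¹' D₁ := by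
          ext x
          simp only [hGdef, mem_preimage, mem_ofPred_eq, sub_eq_add_neg]
          exact ⟨fun hx => hx.2, fun hx => ⟨ht, hx⟩⟩
        rw [e2, measure_preimage_add_right]
      · rw [indicator_of_notMem ht]
        have e2 : (fun x : V₁ => (x, t)) ⁻¹' G = ∅ := by
          ext x
          simp only [hGdef, mem_preimage, mem_ofPred_eq, mem_empty_iff_false, iff_false]
          exact fun hx => ht hx.1
        rw [e2, measure_empty]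
    simp_rw [e]
    rw [lintegral_indicator_const measurableSet_Icc, Real.volume_Icc]
    simp
  calc μ₂ D₂ * μ₁ (D₁ + segment ℝ 0 u) + ENNReal.ofReal (bright μ₂ D₂ v) * μ₁ D₁
      = ∫⁻ x, ((D₁ + segment ℝ 0 u).indicator (fun _ => μ₂ D₂) x
          + ENNReal.ofReal (bright μ₂ D₂ v) * volume (Prod.mk x ⁻¹' G)) ∂μ₁ := by
        rw [lintegral_add_left (measurable_const.indicator hE),
          lintegral_indicator_const hE, lintegral_const_mul _ (measurable_measure_prodMk_left hG),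
          hGint]
    _ ≤ ∫⁻ x, μ₂ (Prod.mk x ⁻¹' S) ∂μ₁ := lintegral_mono hpt
    _ = (μ₁.prod μ₂) S := (Measure.prod_apply hS.measurableSet).symm

theorem bright_prod_ge (μ₁ : Measure V₁) [μ₁.IsAddHaarMeasure] (μ₂ : Measure V₂)
    [μ₂.IsAddHaarMeasure] (D₁ : Set V₁) (hD₁ : IsCompact D₁) (hD₁v : Convex ℝ D₁)
    (D₂ : Set V₂) (hD₂ : IsCompact D₂) (hD₂v : Convex ℝ D₂) (u : V₁) (v : V₂) :
    (μ₂ D₂).toReal * bright μ₁ D₁ u + (μ₁ D₁).toReal * bright μ₂ D₂ v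
      ≤ bright (μ₁.prod μ₂) (D₁ ×ˢ D₂) (u, v) := by
  have key := prod_sweep_ge2 μ₁ μ₂ D₁ hD₁ hD₁v D₂ hD₂ hD₂v u v
  have hb0 : 0 ≤ bright μ₂ D₂ v := bright_nonneg μ₂ D₂ hD₂ v
  have hfin1 : μ₁ (D₁ + segment ℝ 0 u) ≠ ⊤ := (hD₁.add (isCompact_seg' _ _)).measure_lt_top.ne
  have hfin2 : μ₁ D₁ ≠ ⊤ := hD₁.measure_lt_top.ne
  have hfin2' : μ₂ D₂ ≠ ⊤ := hD₂.measure_lt_top.ne
  have hfin3 : (μ₁.prod μ₂) (D₁ ×ˢ D₂ + segment ℝ (0 : V₁ × V₂) (u, v)) ≠ ⊤ :=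
    ((hD₁.prod hD₂).add (isCompact_seg' _ _)).measure_lt_top.ne
  have hK : (μ₁.prod μ₂) (D₁ ×ˢ D₂) = μ₁ D₁ * μ₂ D₂ := Measure.prod_prod _ _
  have h1 := ENNReal.toReal_mono hfin3 key
  rw [ENNReal.toReal_add (ENNReal.mul_ne_top hfin2' hfin1)
      (ENNReal.mul_ne_top ENNReal.ofReal_ne_top hfin2), ENNReal.toReal_mul, ENNReal.toReal_mul,
    ENNReal.toReal_ofReal hb0] at h1
  have e1 : bright μ₁ D₁ u = (μ₁ (D₁ + segment ℝ 0 u)).toReal - (μ₁ D₁).toReal := rfl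
  have e2 : bright (μ₁.prod μ₂) (D₁ ×ˢ D₂) (u, v)
      = ((μ₁.prod μ₂) (D₁ ×ˢ D₂ + segment ℝ (0 : V₁ × V₂) (u, v))).toReal
        - ((μ₁.prod μ₂) (D₁ ×ˢ D₂)).toReal := rfl
  rw [e1, e2, hK, ENNReal.toReal_mul]
  have e3 : (μ₂ D₂).toReal * ((μ₁ (D₁ + segment ℝ 0 u)).toReal - (μ₁ D₁).toReal)
      = (μ₂ D₂).toReal * (μ₁ (D₁ + segment ℝ 0 u)).toReal - (μ₁ D₁).toReal * (μ₂ D₂).toReal := by
    ring
  have e4 : (μ₁ D₁).toReal * bright μ₂ D₂ v = bright μ₂ D₂ v * (μ₁ D₁).toReal := by ring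
  rw [e3, e4]
  linarith

theorem pbody_prod_subset (μ₁ : Measure V₁) [μ₁.IsAddHaarMeasure] (μ₂ : Measure V₂)
    [μ₂.IsAddHaarMeasure] (B₁ : V₁ → V₁ → ℝ)
    (hB₁ : ∀ (c : ℝ) (x u : V₁), B₁ (c • x) u = c * B₁ x u) (B₂ : V₂ → V₂ → ℝ)
    (hB₂ : ∀ (c : ℝ) (x u : V₂), B₂ (c • x) u = c * B₂ x u)
    (D₁ : Set V₁) (hD₁ : IsCompact D₁) (hD₁v : Convex ℝ D₁)
    (D₂ : Set V₂) (hD₂ : IsCompact D₂) (hD₂v : Convex ℝ D₂) :
    ((μ₂ D₂).toReal • pbody μ₁ B₁ D₁) ×ˢ ((μ₁ D₁).toReal • pbody μ₂ B₂ D₂)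
      ⊆ pbody (μ₁.prod μ₂) (fun z w => B₁ z.1 w.1 + B₂ z.2 w.2) (D₁ ×ˢ D₂) := by
  rintro ⟨x, y⟩ ⟨hx, hy⟩ ⟨u, v⟩
  obtain ⟨x₀, hx₀, hxeq⟩ := hx
  obtain ⟨y₀, hy₀, hyeq⟩ := hy
  have hxeq' : (μ₂ D₂).toReal • x₀ = x := hxeq
  have hyeq' : (μ₁ D₁).toReal • y₀ = y := hyeq
  have h1 := hx₀ u
  have h2 := hy₀ v
  have h3 := bright_prod_ge μ₁ μ₂ D₁ hD₁ hD₁v D₂ hD₂ hD₂v u v
  show B₁ x u + B₂ y v ≤ bright (μ₁.prod μ₂) (D₁ ×ˢ D₂) (u, v)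
  rw [← hxeq', ← hyeq', hB₁, hB₂]
  have h4 : (μ₂ D₂).toReal * B₁ x₀ u ≤ (μ₂ D₂).toReal * bright μ₁ D₁ u :=
    mul_le_mul_of_nonneg_left h1 ENNReal.toReal_nonneg
  have h5 : (μ₁ D₁).toReal * B₂ y₀ v ≤ (μ₁ D₁).toReal * bright μ₂ D₂ v :=
    mul_le_mul_of_nonneg_left h2 ENNReal.toReal_nonneg
  linarith

theorem vol_prod_smul (μ₁ : Measure V₁) [μ₁.IsAddHaarMeasure] (μ₂ : Measure V₂)
    [μ₂.IsAddHaarMeasure] (P₁ : Set V₁) (P₂ : Set V₂) (r₁ r₂ : ℝ) (h1 : 0 ≤ r₁) (h2 : 0 ≤ r₂) :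
    (μ₁.prod μ₂) ((r₁ • P₁) ×ˢ (r₂ • P₂))
      = ENNReal.ofReal (r₁ ^ Module.finrank ℝ V₁) * μ₁ P₁
        * (ENNReal.ofReal (r₂ ^ Module.finrank ℝ V₂) * μ₂ P₂) := by
  rw [Measure.prod_prod, Measure.addHaar_smul, Measure.addHaar_smul,
    abs_of_nonneg (pow_nonneg h1 _), abs_of_nonneg (pow_nonneg h2 _)]

/-- The product step: the projection body of `D₁ × D₂` has measure at least
`μ₂(D₂)^a μ₁(D₁)^b μ₁(pbody D₁) μ₂(pbody D₂)`, `a = dim V₁`, `b = dim V₂`. -/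
theorem prod_main (μ₁ : Measure V₁) [μ₁.IsAddHaarMeasure] (μ₂ : Measure V₂)
    [μ₂.IsAddHaarMeasure] (B₁ : V₁ → V₁ → ℝ)
    (hB₁ : ∀ (c : ℝ) (x u : V₁), B₁ (c • x) u = c * B₁ x u) (B₂ : V₂ → V₂ → ℝ)
    (hB₂ : ∀ (c : ℝ) (x u : V₂), B₂ (c • x) u = c * B₂ x u)
    (D₁ : Set V₁) (hD₁ : IsCompact D₁) (hD₁v : Convex ℝ D₁)
    (D₂ : Set V₂) (hD₂ : IsCompact D₂) (hD₂v : Convex ℝ D₂) :
    μ₂ D₂ ^ Module.finrank ℝ V₁ * μ₁ D₁ ^ Module.finrank ℝ V₂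
        * μ₁ (pbody μ₁ B₁ D₁) * μ₂ (pbody μ₂ B₂ D₂)
      ≤ (μ₁.prod μ₂) (pbody (μ₁.prod μ₂) (fun z w => B₁ z.1 w.1 + B₂ z.2 w.2) (D₁ ×ˢ D₂)) := by
  refine le_trans (le_of_eq ?_)
    (measure_mono (pbody_prod_subset μ₁ μ₂ B₁ hB₁ B₂ hB₂ D₁ hD₁ hD₁v D₂ hD₂ hD₂v))
  rw [vol_prod_smul μ₁ μ₂ _ _ _ _ ENNReal.toReal_nonneg ENNReal.toReal_nonneg,
    ENNReal.ofReal_pow ENNReal.toReal_nonneg, ENNReal.ofReal_pow ENNReal.toReal_nonneg,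
    ENNReal.ofReal_toReal hD₁.measure_lt_top.ne, ENNReal.ofReal_toReal hD₂.measure_lt_top.ne]
  ring

/-- `prod_main` with the bilinear forms listed before their homogeneity hypotheses. -/
theorem prod_main98 (μ₁ : Measure V₁) [μ₁.IsAddHaarMeasure] (μ₂ : Measure V₂)
    [μ₂.IsAddHaarMeasure] (B₁ : V₁ → V₁ → ℝ) (B₂ : V₂ → V₂ → ℝ)
    (hB₁ : ∀ (c : ℝ) (x u : V₁), B₁ (c • x) u = c * B₁ x u)
    (hB₂ : ∀ (c : ℝ) (x u : V₂), B₂ (c • x) u = c * B₂ x u)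
    (D₁ : Set V₁) (hD₁ : IsCompact D₁) (hD₁v : Convex ℝ D₁)
    (D₂ : Set V₂) (hD₂ : IsCompact D₂) (hD₂v : Convex ℝ D₂) :
    μ₂ D₂ ^ Module.finrank ℝ V₁ * μ₁ D₁ ^ Module.finrank ℝ V₂
        * μ₁ (pbody μ₁ B₁ D₁) * μ₂ (pbody μ₂ B₂ D₂)
      ≤ (μ₁.prod μ₂) (pbody (μ₁.prod μ₂) (fun z w => B₁ z.1 w.1 + B₂ z.2 w.2) (D₁ ×ˢ D₂)) :=
  prod_main μ₁ μ₂ B₁ hB₁ B₂ hB₂ D₁ hD₁ hD₁v D₂ hD₂ hD₂v

/-- Petty's inequality passes to products: if `D₁` and `D₂` satisfy Petty's inequality (with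
the constants `pettyC` of their dimensions), then so does `D₁ × D₂`. -/
theorem petty_prod (μ₁ : Measure V₁) [μ₁.IsAddHaarMeasure] (μ₂ : Measure V₂)
    [μ₂.IsAddHaarMeasure] (B₁ : V₁ → V₁ → ℝ)
    (hB₁ : ∀ (c : ℝ) (x u : V₁), B₁ (c • x) u = c * B₁ x u) (B₂ : V₂ → V₂ → ℝ)
    (hB₂ : ∀ (c : ℝ) (x u : V₂), B₂ (c • x) u = c * B₂ x u)
    (D₁ : Set V₁) (hD₁ : IsCompact D₁) (hD₁v : Convex ℝ D₁)
    (D₂ : Set V₂) (hD₂ : IsCompact D₂) (hD₂v : Convex ℝ D₂)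
    (h1 : 1 ≤ Module.finrank ℝ V₁) (h2 : 1 ≤ Module.finrank ℝ V₂)
    (hP₁ : ENNReal.ofReal (pettyC (Module.finrank ℝ V₁)) * μ₁ D₁ ^ (Module.finrank ℝ V₁ - 1)
      ≤ μ₁ (pbody μ₁ B₁ D₁))
    (hP₂ : ENNReal.ofReal (pettyC (Module.finrank ℝ V₂)) * μ₂ D₂ ^ (Module.finrank ℝ V₂ - 1)
      ≤ μ₂ (pbody μ₂ B₂ D₂)) :
    ENNReal.ofReal (pettyC (Module.finrank ℝ V₁ + Module.finrank ℝ V₂))
        * (μ₁.prod μ₂) (D₁ ×ˢ D₂) ^ (Module.finrank ℝ V₁ + Module.finrank ℝ V₂ - 1)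
      ≤ (μ₁.prod μ₂) (pbody (μ₁.prod μ₂) (fun z w => B₁ z.1 w.1 + B₂ z.2 w.2) (D₁ ×ˢ D₂)) := by
  have hmain := prod_main μ₁ μ₂ B₁ hB₁ B₂ hB₂ D₁ hD₁ hD₁v D₂ hD₂ hD₂v
  have hK : (μ₁.prod μ₂) (D₁ ×ˢ D₂) = μ₁ D₁ * μ₂ D₂ := Measure.prod_prod _ _
  rw [hK]
  generalize Module.finrank ℝ V₁ = a at h1 hP₁ hmain ⊢
  generalize Module.finrank ℝ V₂ = b at h2 hP₂ hmain ⊢
  obtain ⟨a', rfl⟩ : ∃ a', a = a' + 1 := ⟨a - 1, by omega⟩
  obtain ⟨b', rfl⟩ : ∃ b', b = b' + 1 := ⟨b - 1, by omega⟩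
  have ea : a' + 1 - 1 = a' := by omega
  have eb : b' + 1 - 1 = b' := by omega
  have eab : a' + 1 + (b' + 1) - 1 = a' + b' + 1 := by omega
  rw [ea] at hP₁
  rw [eb] at hP₂
  rw [eab]
  have hc : ENNReal.ofReal (pettyC (a' + 1 + (b' + 1)))
      ≤ ENNReal.ofReal (pettyC (a' + 1)) * ENNReal.ofReal (pettyC (b' + 1)) := by
    rw [← ENNReal.ofReal_mul (pettyC_pos _).le]
    exact ENNReal.ofReal_le_ofReal (pettyC_add_le _ _)
  calc ENNReal.ofReal (pettyC (a' + 1 + (b' + 1))) * (μ₁ D₁ * μ₂ D₂) ^ (a' + b' + 1)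
      ≤ (ENNReal.ofReal (pettyC (a' + 1)) * ENNReal.ofReal (pettyC (b' + 1)))
          * (μ₁ D₁ * μ₂ D₂) ^ (a' + b' + 1) := by gcongr
    _ = μ₂ D₂ ^ (a' + 1) * μ₁ D₁ ^ (b' + 1) * (ENNReal.ofReal (pettyC (a' + 1)) * μ₁ D₁ ^ a')
          * (ENNReal.ofReal (pettyC (b' + 1)) * μ₂ D₂ ^ b') := by ring
    _ ≤ μ₂ D₂ ^ (a' + 1) * μ₁ D₁ ^ (b' + 1) * μ₁ (pbody μ₁ B₁ D₁) * μ₂ (pbody μ₂ B₂ D₂) := by
        gcongr
    _ ≤ _ := hmain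

end Prod

end Vale.Agent.Lib.P237.H55
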