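import Mathlib

/-!
Numeric fact and final glue (helper55) for the prism case of P237 (proof report of helper98):
`3 * pi ^ 2 / 4 <= 8`, and the chain
`8 |K| ^ 2 = 2 |D| * (4 h ^ 2 |D|) <= 2 |D| * |W| = |Z| <= |Pi K|`
for abstract sets, to be instantiated by the concrete steps.
-/

namespace Vale.Agent.Lib.P237.H55

open MeasureTheory

theorem three_pi_sq_div_four_le_eight : 3 * Real.pi ^ 2 / 4 ≤ 8 := by
  have h1 : Real.pi < 3.15 := Real.pi_lt_d2
  have h0 : 0 < Real.pi := Real.pi_pos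
  nlinarith

theorem ofReal_three_pi_sq_div_four_le : ENNReal.ofReal (3 * Real.pi ^ 2 / 4) ≤ 8 := by
  have h := ENNReal.ofReal_le_ofReal three_pi_sq_div_four_le_eight
  have h8 : ENNReal.ofReal 8 = 8 := by
    rw [show (8 : ℝ) = ((8 : ℕ) : ℝ) by norm_num, ENNReal.ofReal_natCast]
    norm_num
  rwa [h8] at h

/-- The final chain, for abstract measures of the pieces:
`vK = h * vD` (volume of the prism), `4 h ^ 2 vD <= vW` (planar Brunn-Minkowski step),
`vZ = 2 * vD * vW` (volume of the inscribed set), `vZ <= vP` (the inscribed set lies in the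
projection body). -/
theorem glue_chain (vK vD vW vZ vP : ENNReal) (h : ℝ) (hh : 0 ≤ h)
    (hK : vK = ENNReal.ofReal h * vD)
    (hW : 4 * ENNReal.ofReal (h ^ 2) * vD ≤ vW)
    (hZ : vZ = 2 * vD * vW)
    (hP : vZ ≤ vP) :
    8 * vK ^ 2 ≤ vP ∧ ENNReal.ofReal (3 * Real.pi ^ 2 / 4) * vK ^ 2 ≤ vP := by
  have h8 : 8 * vK ^ 2 ≤ vP := by
    calc 8 * vK ^ 2 = 2 * vD * (4 * ENNReal.ofReal (h ^ 2) * vD) := by
          rw [hK, ENNReal.ofReal_pow hh]; ring
      _ ≤ 2 * vD * vW := by gcongr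
      _ = vZ := hZ.symm
      _ ≤ vP := hP
  refine ⟨h8, le_trans ?_ h8⟩
  gcongr
  exact ofReal_three_pi_sq_div_four_le

end Vale.Agent.Lib.P237.H55
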