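import Mathlib
import Vale.Agent.Lib.P237.helper55.KappaProd

/-!
# P237: submultiplicativity of Petty's constant, cleared of denominators

With `kap m = sqrt(pi) ^ m / Gamma (m / 2 + 1)` (the volume of the unit ball of `ℝ ^ m`), the
inequality `pettyC (a + b) ≤ pettyC a * pettyC b` for `a = p + 1`, `b = q + 1` reads, after
multiplying out the denominators,
`kap (a + b - 1) ^ (a + b) * kap (a + b) ^ 2 * (kap a ^ a * kap b ^ b)
  ≤ kap (a + b) ^ (a + b) * (kap (a - 1) ^ a * kap a ^ 2) * (kap (b - 1) ^ b * kap b ^ 2)`.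
-/

namespace Vale.Agent.Lib.P237.H55

theorem clear_aux (A B C D E F : ℝ) (hB : 0 < B) (hD : 0 < D) (hF : 0 < F)
    (h : A / B ≤ (C / D) * (E / F)) : A * (D * F) ≤ B * C * E := by
  have h1 : (C / D) * (E / F) = (C * E) / (D * F) := by
    field_simp
  rw [h1, div_le_div_iff₀ hB (mul_pos hD hF)] at h
  linarith

/-- `pettyC (a + b) ≤ pettyC a * pettyC b` for `a = p + 1`, `b = q + 1`, cleared of
denominators, in terms of `kap`. -/
theorem kp_prod (p q : ℕ) :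
    kap (p + q + 1) ^ (p + q + 2) * kap (p + q + 2) ^ 2
        * (kap (p + 1) ^ (p + 1) * kap (q + 1) ^ (q + 1))
      ≤ kap (p + q + 2) ^ (p + q + 2) * (kap p ^ (p + 1) * kap (p + 1) ^ 2)
        * (kap q ^ (q + 1) * kap (q + 1) ^ 2) := by
  have h := pettyC_add_le (p + 1) (q + 1)
  have e : p + 1 + (q + 1) = p + q + 2 := by ring
  rw [e] at h
  unfold pettyC at h
  have e1 : p + q + 2 - 1 = p + q + 1 := rfl
  have e2 : p + 1 - 1 = p := rfl
  have e3 : q + 1 - 1 = q := rfl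
  rw [e1, e2, e3] at h
  exact clear_aux _ _ _ _ _ _ (pow_pos (kap_pos _) _) (pow_pos (kap_pos _) _)
    (pow_pos (kap_pos _) _) h

/-- The same inequality with the ball volumes written out. -/
theorem kp_prod_explicit (p q : ℕ) :
    (Real.sqrt Real.pi ^ (p + q + 1) / Real.Gamma (((p + q + 1 : ℕ) : ℝ) / 2 + 1)) ^ (p + q + 2)
        * (Real.sqrt Real.pi ^ (p + q + 2) / Real.Gamma (((p + q + 2 : ℕ) : ℝ) / 2 + 1)) ^ 2
        * ((Real.sqrt Real.pi ^ (p + 1) / Real.Gamma (((p + 1 : ℕ) : ℝ) / 2 + 1)) ^ (p + 1)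
          * (Real.sqrt Real.pi ^ (q + 1) / Real.Gamma (((q + 1 : ℕ) : ℝ) / 2 + 1)) ^ (q + 1))
      ≤ (Real.sqrt Real.pi ^ (p + q + 2) / Real.Gamma (((p + q + 2 : ℕ) : ℝ) / 2 + 1))
            ^ (p + q + 2)
        * ((Real.sqrt Real.pi ^ p / Real.Gamma (((p : ℕ) : ℝ) / 2 + 1)) ^ (p + 1)
          * (Real.sqrt Real.pi ^ (p + 1) / Real.Gamma (((p + 1 : ℕ) : ℝ) / 2 + 1)) ^ 2)
        * ((Real.sqrt Real.pi ^ q / Real.Gamma (((q : ℕ) : ℝ) / 2 + 1)) ^ (q + 1)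
          * (Real.sqrt Real.pi ^ (q + 1) / Real.Gamma (((q + 1 : ℕ) : ℝ) / 2 + 1)) ^ 2) :=
  kp_prod p q

/-- Unfolding of `kap`. -/
theorem kap_def (m : ℕ) :
    kap m = Real.sqrt Real.pi ^ m / Real.Gamma (((m : ℕ) : ℝ) / 2 + 1) := rfl

end Vale.Agent.Lib.P237.H55
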