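import Mathlib
import Vale.Agent.Lib.P237.helper98.BoxDefs
import Vale.Agent.Lib.P237.helper55.PettyClear

/-!
# P237: the unit ball volumes `kappa m` as real numbers, and the product inequality for them

`kappa m` (the Lebesgue volume of the Euclidean unit ball of `ℝ ^ m`, an extended nonnegative
real) equals `ENNReal.ofReal (kap m)` for every `m`, including `m = 0` where both are `1`.
The submultiplicativity of Petty's constant, cleared of denominators, is then an inequality
between products of powers of `kappa`.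
-/

open MeasureTheory

namespace Vale.Agent.Lib.P237.H55

open Vale.Agent.Lib.P237

theorem kap_zero : kap 0 = 1 := by
  unfold kap
  simp [gam_zero]

theorem kappa_zero : kappa 0 = 1 := by
  unfold kappa
  rw [volume_euclideanSpace_eq_dirac]
  simp

theorem kappa_eq_ofReal (m : ℕ) : kappa m = ENNReal.ofReal (kap m) := by
  rcases Nat.eq_zero_or_pos m with hm | hm
  · subst hm
    rw [kappa_zero, kap_zero, ENNReal.ofReal_one]
  · have : Nonempty (Fin m) := ⟨⟨0, hm⟩⟩
    have h := EuclideanSpace.volume_ball (Fin m) (0 : EuclideanSpace ℝ (Fin m)) 1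
    unfold kappa
    rw [h]
    simp only [ENNReal.ofReal_one, one_pow, one_mul, Fintype.card_fin]
    rfl

theorem kappa_ne_zero (m : ℕ) : kappa m ≠ 0 := by
  rw [kappa_eq_ofReal]
  exact (ENNReal.ofReal_pos.mpr (kap_pos m)).ne'

theorem kappa_ne_top (m : ℕ) : kappa m ≠ ⊤ := by
  rw [kappa_eq_ofReal]
  exact ENNReal.ofReal_ne_top

/-- The submultiplicativity of Petty's constant for the dimensions `p + 1` and `q + 1`,
cleared of denominators, for the unit ball volumes `kappa`. -/
theorem kappa_prod (p q : ℕ) :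
    kappa (p + q + 1) ^ (p + q + 2) * kappa (p + q + 2) ^ 2
        * (kappa (p + 1) ^ (p + 1) * kappa (q + 1) ^ (q + 1))
      ≤ kappa (p + q + 2) ^ (p + q + 2) * (kappa p ^ (p + 1) * kappa (p + 1) ^ 2)
        * (kappa q ^ (q + 1) * kappa (q + 1) ^ 2) := by
  have h := kp_prod p q
  have h0 : ∀ m, 0 ≤ kap m := fun m => (kap_pos m).le
  simp only [kappa_eq_ofReal]
  simp only [← ENNReal.ofReal_pow (h0 _)]
  have hp : ∀ (m k : ℕ), 0 ≤ kap m ^ k := fun m k => pow_nonneg (h0 m) k
  rw [← ENNReal.ofReal_mul (hp _ _), ← ENNReal.ofReal_mul (hp _ _),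
    ← ENNReal.ofReal_mul (mul_nonneg (hp _ _) (hp _ _)),
    ← ENNReal.ofReal_mul (hp _ _), ← ENNReal.ofReal_mul (hp _ _),
    ← ENNReal.ofReal_mul (hp _ _),
    ← ENNReal.ofReal_mul (mul_nonneg (hp _ _) (mul_nonneg (hp _ _) (hp _ _)))]
  exact ENNReal.ofReal_le_ofReal h

end Vale.Agent.Lib.P237.H55
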