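import Mathlib
import Vale.Agent.Lib.P237.helper55.KappaENN

/-!
# P237: the algebra behind the product step for Petty's inequality

Write Petty's inequality for a set of volume `x` in dimension `n` with projection body of
volume `P` in the form `kappa (n - 1) ^ n * kappa n ^ 2 * x ^ (n - 1) ≤ kappa n ^ n * P`.
If it holds for `(x₁, P₁)` in dimension `p + 1` and for `(x₂, P₂)` in dimension `q + 1`, and
`x₂ ^ (p + 1) * x₁ ^ (q + 1) * P₁ * P₂ ≤ P`, then it holds for `(x₁ * x₂, P)` in dimension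
`p + q + 2`.  All quantities are extended nonnegative reals; no finiteness is needed.
-/

namespace Vale.Agent.Lib.P237.H55

open Vale.Agent.Lib.P237

theorem petty_alg (p q : ℕ) (x₁ x₂ P₁ P₂ P : ENNReal)
    (h1 : kappa p ^ (p + 1) * kappa (p + 1) ^ 2 * x₁ ^ p ≤ kappa (p + 1) ^ (p + 1) * P₁)
    (h2 : kappa q ^ (q + 1) * kappa (q + 1) ^ 2 * x₂ ^ q ≤ kappa (q + 1) ^ (q + 1) * P₂)
    (hmain : x₂ ^ (p + 1) * x₁ ^ (q + 1) * P₁ * P₂ ≤ P) :
    kappa (p + q + 1) ^ (p + q + 2) * kappa (p + q + 2) ^ 2 * (x₁ * x₂) ^ (p + q + 1)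
      ≤ kappa (p + q + 2) ^ (p + q + 2) * P := by
  have hk := kappa_prod p q
  have hT0 : kappa (p + 1) ^ (p + 1) * kappa (q + 1) ^ (q + 1) ≠ 0 :=
    mul_ne_zero (pow_ne_zero _ (kappa_ne_zero _)) (pow_ne_zero _ (kappa_ne_zero _))
  have hTt : kappa (p + 1) ^ (p + 1) * kappa (q + 1) ^ (q + 1) ≠ ⊤ :=
    ENNReal.mul_ne_top (ENNReal.pow_ne_top (kappa_ne_top _)) (ENNReal.pow_ne_top (kappa_ne_top _))
  rw [← ENNReal.mul_le_mul_iff_left hT0 hTt]
  calc kappa (p + q + 1) ^ (p + q + 2) * kappa (p + q + 2) ^ 2 * (x₁ * x₂) ^ (p + q + 1)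
        * (kappa (p + 1) ^ (p + 1) * kappa (q + 1) ^ (q + 1))
      = (kappa (p + q + 1) ^ (p + q + 2) * kappa (p + q + 2) ^ 2
          * (kappa (p + 1) ^ (p + 1) * kappa (q + 1) ^ (q + 1))) * (x₁ * x₂) ^ (p + q + 1) := by
        ring
    _ ≤ (kappa (p + q + 2) ^ (p + q + 2) * (kappa p ^ (p + 1) * kappa (p + 1) ^ 2)
          * (kappa q ^ (q + 1) * kappa (q + 1) ^ 2)) * (x₁ * x₂) ^ (p + q + 1) := by
        gcongr
    _ = kappa (p + q + 2) ^ (p + q + 2) * (kappa p ^ (p + 1) * kappa (p + 1) ^ 2 * x₁ ^ p)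
          * (kappa q ^ (q + 1) * kappa (q + 1) ^ 2 * x₂ ^ q) * (x₂ ^ (p + 1) * x₁ ^ (q + 1)) := by
        ring
    _ ≤ kappa (p + q + 2) ^ (p + q + 2) * (kappa (p + 1) ^ (p + 1) * P₁)
          * (kappa (q + 1) ^ (q + 1) * P₂) * (x₂ ^ (p + 1) * x₁ ^ (q + 1)) := by
        gcongr
    _ = kappa (p + q + 2) ^ (p + q + 2) * (x₂ ^ (p + 1) * x₁ ^ (q + 1) * P₁ * P₂)
          * (kappa (p + 1) ^ (p + 1) * kappa (q + 1) ^ (q + 1)) := by
        ring
    _ ≤ kappa (p + q + 2) ^ (p + q + 2) * P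
          * (kappa (p + 1) ^ (p + 1) * kappa (q + 1) ^ (q + 1)) := by
        gcongr

end Vale.Agent.Lib.P237.H55
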