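import Mathlib
import Vale.Agent.Lib.P237.helper55.PettyAlg

/-!
# P237: strict submultiplicativity of Petty's constant

For `a, b ≥ 1` with `a + b ≥ 3` the inequality `pettyC (a + b) ≤ pettyC a * pettyC b` is
strict (for `a = b = 1` it is the equality `4 = 2 * 2`).  Consequently the product step for
Petty's inequality is strict when both factors have positive finite volume.
-/

namespace Vale.Agent.Lib.P237.H55

open Vale.Agent.Lib.P237

theorem rho_one_lt_two : rho 1 < 2 := by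
  have hs : 0 < Real.sqrt Real.pi := Real.sqrt_pos.mpr Real.pi_pos
  have hsq : Real.sqrt Real.pi ^ 2 = Real.pi := Real.sq_sqrt Real.pi_pos.le
  have hpi : Real.pi < 3.15 := Real.pi_lt_d2
  have hpi0 := Real.pi_pos
  have e : rho 1 = 3 * Real.pi ^ 2 / 16 := by
    unfold rho
    have e1 : gam (1 + 1) = 1 := gam_two
    rw [e1, gam_one]
    have : Real.sqrt Real.pi * ((1 : ℕ) / 2 + 1 : ℝ) ^ 1 * (Real.sqrt Real.pi / 2 / 1) ^ (2 * 1 + 1)
        = 3 * (Real.sqrt Real.pi ^ 2) ^ 2 / 16 := by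
      push_cast
      ring
    rw [this, hsq]
  rw [e]
  nlinarith

theorem rho_lt_two (k : ℕ) (hk : 1 ≤ k) : rho k < 2 :=
  lt_of_le_of_lt (rho_antitone hk) rho_one_lt_two

theorem pettyC_add_lt_aux (a b : ℕ) (ha : 1 ≤ a) :
    pettyC (a + b + 2) < pettyC (a + 1) * pettyC (b + 1) := by
  induction b with
  | zero =>
    rw [Nat.add_zero, pettyC_succ_succ, show (0 : ℕ) + 1 = 1 from rfl, pettyC_one]
    exact mul_lt_mul_of_pos_left (rho_lt_two a ha) (pettyC_pos _)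
  | succ b ih =>
    have e1 : a + (b + 1) + 2 = (a + b + 1) + 2 := by ring
    have e2 : a + b + 1 + 1 = a + b + 2 := rfl
    rw [e1, pettyC_succ_succ (a + b + 1), e2, pettyC_succ_succ b]
    have h1 : rho (a + b + 1) ≤ rho b := rho_antitone (by omega)
    calc pettyC (a + b + 2) * rho (a + b + 1)
        < (pettyC (a + 1) * pettyC (b + 1)) * rho (a + b + 1) :=
          mul_lt_mul_of_pos_right ih (rho_pos _)
      _ ≤ (pettyC (a + 1) * pettyC (b + 1)) * rho b :=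
          mul_le_mul_of_nonneg_left h1 (mul_pos (pettyC_pos _) (pettyC_pos _)).le
      _ = pettyC (a + 1) * (pettyC (b + 1) * rho b) := by ring

/-- Strict submultiplicativity of Petty's constant when the total dimension is at least `3`. -/
theorem pettyC_add_lt (p q : ℕ) (h : 1 ≤ p + q) :
    pettyC (p + q + 2) < pettyC (p + 1) * pettyC (q + 1) := by
  rcases Nat.eq_zero_or_pos p with hp | hp
  · subst hp
    have hq : 1 ≤ q := by omega
    have h' := pettyC_add_lt_aux q 0 hq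
    rw [mul_comm]
    have e : 0 + q + 2 = q + 0 + 2 := by ring
    rw [e]
    exact h'
  · exact pettyC_add_lt_aux p q hp

theorem clear_aux_lt (A B C D E F : ℝ) (hB : 0 < B) (hD : 0 < D) (hF : 0 < F)
    (h : A / B < (C / D) * (E / F)) : A * (D * F) < B * C * E := by
  have h1 : (C / D) * (E / F) = (C * E) / (D * F) := by
    field_simp
  rw [h1, div_lt_div_iff₀ hB (mul_pos hD hF)] at h
  linarith

/-- The strict constant inequality cleared of denominators, in terms of `kap`. -/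
theorem kp_prod_lt (p q : ℕ) (hpq : 1 ≤ p + q) :
    kap (p + q + 1) ^ (p + q + 2) * kap (p + q + 2) ^ 2
        * (kap (p + 1) ^ (p + 1) * kap (q + 1) ^ (q + 1))
      < kap (p + q + 2) ^ (p + q + 2) * (kap p ^ (p + 1) * kap (p + 1) ^ 2)
        * (kap q ^ (q + 1) * kap (q + 1) ^ 2) := by
  have h := pettyC_add_lt p q hpq
  unfold pettyC at h
  have e1 : p + q + 2 - 1 = p + q + 1 := rfl
  have e2 : p + 1 - 1 = p := rfl
  have e3 : q + 1 - 1 = q := rfl
  rw [e1, e2, e3] at h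
  exact clear_aux_lt _ _ _ _ _ _ (pow_pos (kap_pos _) _) (pow_pos (kap_pos _) _)
    (pow_pos (kap_pos _) _) h

/-- The strict constant inequality for the unit ball volumes `kappa`. -/
theorem kappa_prod_lt (p q : ℕ) (hpq : 1 ≤ p + q) :
    kappa (p + q + 1) ^ (p + q + 2) * kappa (p + q + 2) ^ 2
        * (kappa (p + 1) ^ (p + 1) * kappa (q + 1) ^ (q + 1))
      < kappa (p + q + 2) ^ (p + q + 2) * (kappa p ^ (p + 1) * kappa (p + 1) ^ 2)
        * (kappa q ^ (q + 1) * kappa (q + 1) ^ 2) := by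
  have h := kp_prod_lt p q hpq
  have h0 : ∀ m, 0 ≤ kap m := fun m => (kap_pos m).le
  simp only [kappa_eq_ofReal]
  simp only [← ENNReal.ofReal_pow (h0 _)]
  have hp : ∀ (m k : ℕ), 0 ≤ kap m ^ k := fun m k => pow_nonneg (h0 m) k
  have hpp : ∀ (m k : ℕ), 0 < kap m ^ k := fun m k => pow_pos (kap_pos m) k
  rw [← ENNReal.ofReal_mul (hp _ _), ← ENNReal.ofReal_mul (hp _ _),
    ← ENNReal.ofReal_mul (mul_nonneg (hp _ _) (hp _ _)),
    ← ENNReal.ofReal_mul (hp _ _), ← ENNReal.ofReal_mul (hp _ _),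
    ← ENNReal.ofReal_mul (hp _ _),
    ← ENNReal.ofReal_mul (mul_nonneg (hp _ _) (mul_nonneg (hp _ _) (hp _ _)))]
  refine (ENNReal.ofReal_lt_ofReal_iff ?_).mpr h
  exact mul_pos (mul_pos (hpp _ _) (mul_pos (hpp _ _) (hpp _ _))) (mul_pos (hpp _ _) (hpp _ _))

/-- The strict product step: as `petty_alg`, with a strict conclusion when the total dimension
is at least `3` and both volumes are positive and finite. -/
theorem petty_alg_lt (p q : ℕ) (hpq : 1 ≤ p + q) (x₁ x₂ P₁ P₂ P : ENNReal)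
    (hx₁ : x₁ ≠ 0) (hx₁t : x₁ ≠ ⊤) (hx₂ : x₂ ≠ 0) (hx₂t : x₂ ≠ ⊤)
    (h1 : kappa p ^ (p + 1) * kappa (p + 1) ^ 2 * x₁ ^ p ≤ kappa (p + 1) ^ (p + 1) * P₁)
    (h2 : kappa q ^ (q + 1) * kappa (q + 1) ^ 2 * x₂ ^ q ≤ kappa (q + 1) ^ (q + 1) * P₂)
    (hmain : x₂ ^ (p + 1) * x₁ ^ (q + 1) * P₁ * P₂ ≤ P) :
    kappa (p + q + 1) ^ (p + q + 2) * kappa (p + q + 2) ^ 2 * (x₁ * x₂) ^ (p + q + 1)
      < kappa (p + q + 2) ^ (p + q + 2) * P := by
  have hk := kappa_prod_lt p q hpq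
  have hT0 : kappa (p + 1) ^ (p + 1) * kappa (q + 1) ^ (q + 1) ≠ 0 :=
    mul_ne_zero (pow_ne_zero _ (kappa_ne_zero _)) (pow_ne_zero _ (kappa_ne_zero _))
  have hTt : kappa (p + 1) ^ (p + 1) * kappa (q + 1) ^ (q + 1) ≠ ⊤ :=
    ENNReal.mul_ne_top (ENNReal.pow_ne_top (kappa_ne_top _)) (ENNReal.pow_ne_top (kappa_ne_top _))
  have hX0 : (x₁ * x₂) ^ (p + q + 1) ≠ 0 := pow_ne_zero _ (mul_ne_zero hx₁ hx₂)
  have hXt : (x₁ * x₂) ^ (p + q + 1) ≠ ⊤ := ENNReal.pow_ne_top (ENNReal.mul_ne_top hx₁t hx₂t)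
  rw [← ENNReal.mul_lt_mul_iff_left hT0 hTt]
  calc kappa (p + q + 1) ^ (p + q + 2) * kappa (p + q + 2) ^ 2 * (x₁ * x₂) ^ (p + q + 1)
        * (kappa (p + 1) ^ (p + 1) * kappa (q + 1) ^ (q + 1))
      = (kappa (p + q + 1) ^ (p + q + 2) * kappa (p + q + 2) ^ 2
          * (kappa (p + 1) ^ (p + 1) * kappa (q + 1) ^ (q + 1))) * (x₁ * x₂) ^ (p + q + 1) := by
        ring
    _ < (kappa (p + q + 2) ^ (p + q + 2) * (kappa p ^ (p + 1) * kappa (p + 1) ^ 2)
          * (kappa q ^ (q + 1) * kappa (q + 1) ^ 2)) * (x₁ * x₂) ^ (p + q + 1) :=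
        (ENNReal.mul_lt_mul_iff_left hX0 hXt).mpr hk
    _ = kappa (p + q + 2) ^ (p + q + 2) * (kappa p ^ (p + 1) * kappa (p + 1) ^ 2 * x₁ ^ p)
          * (kappa q ^ (q + 1) * kappa (q + 1) ^ 2 * x₂ ^ q) * (x₂ ^ (p + 1) * x₁ ^ (q + 1)) := by
        ring
    _ ≤ kappa (p + q + 2) ^ (p + q + 2) * (kappa (p + 1) ^ (p + 1) * P₁)
          * (kappa (q + 1) ^ (q + 1) * P₂) * (x₂ ^ (p + 1) * x₁ ^ (q + 1)) := by
        gcongr
    _ = kappa (p + q + 2) ^ (p + q + 2) * (x₂ ^ (p + 1) * x₁ ^ (q + 1) * P₁ * P₂)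
          * (kappa (p + 1) ^ (p + 1) * kappa (q + 1) ^ (q + 1)) := by
        ring
    _ ≤ kappa (p + q + 2) ^ (p + q + 2) * P
          * (kappa (p + 1) ^ (p + 1) * kappa (q + 1) ^ (q + 1)) := by
        gcongr

end Vale.Agent.Lib.P237.H55
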