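import Mathlib
import Vale.Agent.Lib.P237.helper98.AllDim
import Vale.Agent.Lib.P237.helper98.Const
import Vale.Agent.Lib.P237.helper55.BrightProd
import Vale.Agent.Lib.P237.helper55.PettyAlg

/-!
# P237: products in the coordinate model `R^N = Fin N → ℝ`

`prodN K₁ K₂` is the product of `K₁ ⊆ R^a` and `K₂ ⊆ R^b` inside `R^(a+b)` (the first `a`
coordinates in `K₁`, the last `b` in `K₂`).  `pettyN N K` is Petty's inequality for `K ⊆ R^N`,
multiplied by `kappa N ^ N` so that no division occurs.  We transfer the product step of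
`BrightProd` to this model: `prodN_main` (the ratio `vol (Π K) / vol K ^ (N - 1)` is
supermultiplicative on products) and `prodN_petty` (Petty's inequality passes to products).
-/

open MeasureTheory Set
open scoped Pointwise

namespace Vale.Agent.Lib.P237.H55

open Vale.Agent.Lib.P237

/-- The product of `K₁ ⊆ R^a` and `K₂ ⊆ R^b` in `R^(a+b)`: the points whose first `a`
coordinates form a point of `K₁` and whose last `b` coordinates form a point of `K₂`. -/
def prodN {a b : ℕ} (K₁ : Set (Fin a → ℝ)) (K₂ : Set (Fin b → ℝ)) : Set (Fin (a + b) → ℝ) :=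
  {x | (fun i => x (Fin.castAdd b i)) ∈ K₁ ∧ (fun j => x (Fin.natAdd a j)) ∈ K₂}

/-- Petty's inequality for `K ⊆ R^N`, multiplied by `kappa N ^ N`:
`κ_(N-1)^N κ_N^2 vol(K)^(N-1) ≤ κ_N^N vol(Π K)`, with `κ_m = kappa m` the volume of the unit
ball of `R^m` (`kappa 0 = 1`) and `Π K = projBodyN K`.  For `N ≥ 2` this is
`κ_(N-1)^N vol(K)^(N-1) ≤ κ_N^(N-2) vol(Π K)`. -/
def pettyN (N : ℕ) (K : Set (Fin N → ℝ)) : Prop :=
  kappa (N - 1) ^ N * kappa N ^ 2 * volN K ^ (N - 1) ≤ kappa N ^ N * volN (projBodyN K)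

/-- Splitting `R^(a+b)` into the first `a` and the last `b` coordinates. -/
noncomputable def eP (a b : ℕ) : (Fin (a + b) → ℝ) ≃ᵐ (Fin a → ℝ) × (Fin b → ℝ) :=
  (MeasurableEquiv.piCongrLeft (fun _ : Fin (a + b) => ℝ) finSumFinEquiv).symm.trans
    (MeasurableEquiv.sumPiEquivProdPi (fun _ : Fin a ⊕ Fin b => ℝ))

theorem eP_apply (a b : ℕ) (x : Fin (a + b) → ℝ) :
    eP a b x = (fun i => x (Fin.castAdd b i), fun j => x (Fin.natAdd a j)) := by
  unfold eP
  ext j
  · simp [MeasurableEquiv.piCongrLeft, MeasurableEquiv.sumPiEquivProdPi, Equiv.sumPiEquivProdPi]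
  · simp [MeasurableEquiv.piCongrLeft, MeasurableEquiv.sumPiEquivProdPi, Equiv.sumPiEquivProdPi]

theorem eP_add (a b : ℕ) (x y : Fin (a + b) → ℝ) : eP a b (x + y) = eP a b x + eP a b y := by
  rw [eP_apply, eP_apply, eP_apply]
  rfl

theorem eP_smul (a b : ℕ) (c : ℝ) (x : Fin (a + b) → ℝ) : eP a b (c • x) = c • eP a b x := by
  rw [eP_apply, eP_apply]
  rfl

theorem eP_mp (a b : ℕ) :
    MeasurePreserving (eP a b) (volume : Measure (Fin (a + b) → ℝ))
      ((volume : Measure (Fin a → ℝ)).prod (volume : Measure (Fin b → ℝ))) := by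
  have h1 := (volume_measurePreserving_piCongrLeft (fun _ : Fin (a + b) => ℝ)
    (finSumFinEquiv (m := a) (n := b))).symm
  have h2 := volume_measurePreserving_sumPiEquivProdPi (fun _ : Fin a ⊕ Fin b => ℝ)
  exact h1.trans h2

theorem eP_dot (a b : ℕ) (x u : Fin (a + b) → ℝ) :
    dotN x u = dotN (eP a b x).1 (eP a b u).1 + dotN (eP a b x).2 (eP a b u).2 := by
  rw [eP_apply, eP_apply]
  unfold dotN
  rw [Fin.sum_univ_add]

theorem prodN_eq {a b : ℕ} (K₁ : Set (Fin a → ℝ)) (K₂ : Set (Fin b → ℝ)) :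
    prodN K₁ K₂ = eP a b ⁻¹' (K₁ ×ˢ K₂) := by
  ext x
  rw [mem_preimage, eP_apply]
  rfl


theorem eP_symm_apply (a b : ℕ) (p : (Fin a → ℝ) × (Fin b → ℝ)) :
    (eP a b).symm p = Fin.append p.1 p.2 := by
  apply (eP a b).injective
  rw [MeasurableEquiv.apply_symm_apply, eP_apply]
  ext j
  · simp
  · simp

theorem eP_symm_cont (a b : ℕ) : Continuous (eP a b).symm := by
  have h : ((eP a b).symm : (Fin a → ℝ) × (Fin b → ℝ) → (Fin (a + b) → ℝ))
      = fun p => Fin.append p.1 p.2 := by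
    funext p
    exact eP_symm_apply a b p
  rw [h]
  refine continuous_pi fun k => ?_
  induction k using Fin.addCases with
  | left i =>
    simp only [Fin.append_left]
    exact (continuous_apply i).comp continuous_fst
  | right j =>
    simp only [Fin.append_right]
    exact (continuous_apply j).comp continuous_snd

theorem prodN_compact {a b : ℕ} (K₁ : Set (Fin a → ℝ)) (K₂ : Set (Fin b → ℝ))
    (h1 : IsCompact K₁) (h2 : IsCompact K₂) : IsCompact (prodN K₁ K₂) := by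
  rw [prodN_eq]
  exact compact_preimage (eP a b) (eP_symm_cont a b) _ (h1.prod h2)

theorem prodN_convex {a b : ℕ} (K₁ : Set (Fin a → ℝ)) (K₂ : Set (Fin b → ℝ))
    (h1 : Convex ℝ K₁) (h2 : Convex ℝ K₂) : Convex ℝ (prodN K₁ K₂) := by
  intro x hx y hy s t hs ht hst
  exact ⟨h1 hx.1 hy.1 hs ht hst, h2 hx.2 hy.2 hs ht hst⟩

theorem volN_prodN {a b : ℕ} (K₁ : Set (Fin a → ℝ)) (K₂ : Set (Fin b → ℝ)) :
    volN (prodN K₁ K₂) = volN K₁ * volN K₂ := by
  unfold volN
  rw [prodN_eq, (eP_mp a b).measure_preimage_equiv, Measure.prod_prod]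

theorem projBodyN_prodN {a b : ℕ} (K₁ : Set (Fin a → ℝ)) (K₂ : Set (Fin b → ℝ)) :
    volN (projBodyN (prodN K₁ K₂))
      = ((volume : Measure (Fin a → ℝ)).prod (volume : Measure (Fin b → ℝ)))
          (pbody ((volume : Measure (Fin a → ℝ)).prod (volume : Measure (Fin b → ℝ)))
            (fun z w => dotN z.1 w.1 + dotN z.2 w.2) (K₁ ×ˢ K₂)) := by
  unfold volN
  rw [projBodyN_eq, prodN_eq]
  exact pbody_transfer volume _ (eP a b) (eP_add a b) (eP_smul a b) (eP_mp a b) dotN _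
    (eP_dot a b) _

/-- The ratio `vol (Π K) / vol K ^ (N - 1)` is supermultiplicative on products, in the form
cleared of denominators. -/
theorem prodN_main {a b : ℕ} (K₁ : Set (Fin a → ℝ)) (K₂ : Set (Fin b → ℝ))
    (h1 : IsCompact K₁) (h1v : Convex ℝ K₁) (h2 : IsCompact K₂) (h2v : Convex ℝ K₂) :
    volN K₂ ^ a * volN K₁ ^ b * volN (projBodyN K₁) * volN (projBodyN K₂)
      ≤ volN (projBodyN (prodN K₁ K₂)) := by
  rw [projBodyN_prodN]
  have h := prod_main98 (volume : Measure (Fin a → ℝ)) (volume : Measure (Fin b → ℝ))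
    dotN dotN dotN_smul dotN_smul K₁ h1 h1v K₂ h2 h2v
  rw [Module.finrank_fin_fun, Module.finrank_fin_fun] at h
  exact h

/-- Petty's inequality passes from two compact convex sets to their product. -/
theorem prodN_petty {a b : ℕ} (ha : 1 ≤ a) (hb : 1 ≤ b) (K₁ : Set (Fin a → ℝ))
    (K₂ : Set (Fin b → ℝ))
    (h1 : IsCompact K₁) (h1v : Convex ℝ K₁) (h2 : IsCompact K₂) (h2v : Convex ℝ K₂)
    (hP1 : pettyN a K₁) (hP2 : pettyN b K₂) : pettyN (a + b) (prodN K₁ K₂) := by
  have hmain := prodN_main K₁ K₂ h1 h1v h2 h2v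
  obtain ⟨p, rfl⟩ : ∃ p, a = p + 1 := ⟨a - 1, by omega⟩
  obtain ⟨q, rfl⟩ : ∃ q, b = q + 1 := ⟨b - 1, by omega⟩
  unfold pettyN at hP1 hP2 ⊢
  rw [volN_prodN]
  have e1 : p + 1 - 1 = p := rfl
  have e2 : q + 1 - 1 = q := rfl
  have e3 : p + 1 + (q + 1) - 1 = p + q + 1 := by omega
  have e4 : p + 1 + (q + 1) = p + q + 2 := by omega
  rw [e1] at hP1
  rw [e2] at hP2
  rw [e3]
  have h := petty_alg p q (volN K₁) (volN K₂) (volN (projBodyN K₁)) (volN (projBodyN K₂))
    (volN (projBodyN (prodN K₁ K₂))) hP1 hP2 hmain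
  generalize volN (projBodyN (prodN K₁ K₂)) = P at h ⊢
  rw [e4]
  exact h

end Vale.Agent.Lib.P237.H55
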