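import Mathlib
import Vale.Agent.Lib.P237.helper55.ProdFin
import Vale.Agent.Lib.P237.helper55.Kappa

/-!
# P237: Petty's inequality for products of compact convex sets of dimensions one and two

In the coordinate model `R^N = Fin N → ℝ` of `BoxDefs`/`ProdFin` we prove the inequality
`pettyN` for nonempty compact convex subsets of `R^1` (`one_dim_petty`), for compact convex
subsets of `R^2` (`plane_petty`), for boxes over planar compact convex sets (`boxOver_petty`),
and then, by `prodN_petty`, for every iterated product of such sets: `lowProd_petty` and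
`boxProd_petty`.
-/

open MeasureTheory Set
open scoped Pointwise

namespace Vale.Agent.Lib.P237.H55

open Vale.Agent.Lib.P237

/-- In `ℝ`, the sum of an interval and a segment from `0` contains the enlarged interval. -/
theorem Icc_subset_add_seg (a b t : ℝ) (hab : a ≤ b) :
    Icc (a + min 0 t) (b + max 0 t) ⊆ Icc a b + segment ℝ 0 t := by
  intro y hy
  rw [Set.mem_add]
  rcases le_total 0 t with ht | ht
  · rw [min_eq_left ht, max_eq_right ht, add_zero] at hy
    rcases le_total y b with hyb | hyb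
    · exact ⟨y, ⟨hy.1, hyb⟩, 0, left_mem_segment ℝ 0 t, add_zero y⟩
    · refine ⟨b, ⟨hab, le_refl b⟩, y - b, ?_, by ring⟩
      rw [segment_eq_Icc ht]
      exact ⟨by linarith, by linarith [hy.2]⟩
  · rw [min_eq_right ht, max_eq_left ht, add_zero] at hy
    rcases le_total a y with hya | hya
    · exact ⟨y, ⟨hya, hy.2⟩, 0, left_mem_segment ℝ 0 t, add_zero y⟩
    · refine ⟨a, ⟨le_refl a, hab⟩, y - a, ?_, by ring⟩
      rw [segment_symm, segment_eq_Icc ht]
      exact ⟨by linarith [hy.1], by linarith⟩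

/-- The brightness of an interval of `ℝ` in the direction `t` is at least `|t|`. -/
theorem bright_Icc_ge (a b t : ℝ) (hab : a ≤ b) :
    |t| ≤ bright (volume : Measure ℝ) (Icc a b) t := by
  unfold bright
  have hc : IsCompact (Icc a b + segment ℝ 0 t) := isCompact_Icc.add (isCompact_seg' 0 t)
  have h1 : volume (Icc (a + min 0 t) (b + max 0 t)) ≤ volume (Icc a b + segment ℝ 0 t) :=
    measure_mono (Icc_subset_add_seg a b t hab)
  have h2 : (volume (Icc (a + min 0 t) (b + max 0 t))).toReal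
      ≤ (volume (Icc a b + segment ℝ 0 t)).toReal :=
    ENNReal.toReal_mono hc.measure_lt_top.ne h1
  rw [Real.volume_Icc, ENNReal.toReal_ofReal] at h2
  · rw [Real.volume_Icc, ENNReal.toReal_ofReal (by linarith)]
    have h3 : b + max 0 t - (a + min 0 t) = (b - a) + |t| := by
      rcases le_total 0 t with ht | ht
      · rw [min_eq_left ht, max_eq_right ht, abs_of_nonneg ht]; ring
      · rw [min_eq_right ht, max_eq_left ht, abs_of_nonpos ht]; ring
    rw [h3] at h2
    linarith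
  · rcases le_total 0 t with ht | ht
    · rw [min_eq_left ht, max_eq_right ht]; linarith
    · rw [min_eq_right ht, max_eq_left ht]; linarith

/-- The projection body of an interval of `ℝ` has length at least `2`. -/
theorem pbody_Icc_ge (a b : ℝ) (hab : a ≤ b) :
    2 ≤ (volume : Measure ℝ) (pbody volume (fun x u : ℝ => x * u) (Icc a b)) := by
  have hsub : Icc (-1 : ℝ) 1 ⊆ pbody volume (fun x u : ℝ => x * u) (Icc a b) := by
    intro x hx u
    refine le_trans ?_ (bright_Icc_ge a b u hab)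
    have h1 : x * u ≤ |x * u| := le_abs_self _
    rw [abs_mul] at h1
    have h2 : |x| ≤ 1 := abs_le.mpr hx
    nlinarith [abs_nonneg u]
  refine le_trans ?_ (measure_mono hsub)
  rw [Real.volume_Icc]
  norm_num


theorem kap_one : kap 1 = 2 := by
  have hs : 0 < Real.sqrt Real.pi := Real.sqrt_pos.mpr Real.pi_pos
  unfold kap
  rw [gam_one]
  field_simp

theorem kappa_one : kappa 1 = 2 := by
  rw [kappa_eq_ofReal, kap_one]
  simp

/-- Evaluation at the only coordinate of `R^1`. -/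
noncomputable def e1 : (Fin 1 → ℝ) ≃ᵐ ℝ := MeasurableEquiv.funUnique (Fin 1) ℝ

theorem e1_apply (x : Fin 1 → ℝ) : e1 x = x 0 := rfl

theorem e1_mp : MeasurePreserving e1 (volume : Measure (Fin 1 → ℝ)) (volume : Measure ℝ) :=
  volume_preserving_funUnique (Fin 1) ℝ

theorem e1_dot (x u : Fin 1 → ℝ) : dotN x u = e1 x * e1 u := by
  unfold dotN
  rw [Fin.sum_univ_one]
  rfl

/-- A nonempty compact convex subset of `R^1` is an interval. -/
theorem one_dim_eq (K : Set (Fin 1 → ℝ)) (hKc : IsCompact K) (hKv : Convex ℝ K)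
    (hKn : K.Nonempty) : ∃ a b : ℝ, a ≤ b ∧ K = e1 ⁻¹' (Icc a b) := by
  have hc' : IsCompact ((fun x : Fin 1 → ℝ => x 0) '' K) := hKc.image (continuous_apply 0)
  have hv' : Convex ℝ ((fun x : Fin 1 → ℝ => x 0) '' K) := by
    rintro _ ⟨x, hx, rfl⟩ _ ⟨y, hy, rfl⟩ s t hs ht hst
    exact ⟨s • x + t • y, hKv hx hy hs ht hst, rfl⟩
  have hn' : ((fun x : Fin 1 → ℝ => x 0) '' K).Nonempty := hKn.image _
  have hIcc := eq_Icc_of_connected_compact ⟨hn', hv'.isPreconnected⟩ hc'
  refine ⟨sInf ((fun x : Fin 1 → ℝ => x 0) '' K), sSup ((fun x : Fin 1 → ℝ => x 0) '' K), ?_, ?_⟩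
  · rw [hIcc] at hn'
    exact nonempty_Icc.mp hn'
  · rw [← hIcc]
    ext x
    constructor
    · intro hx
      exact ⟨x, hx, rfl⟩
    · rintro ⟨y, hy, hyx⟩
      have : x = y := by
        funext i
        have hi : i = 0 := Subsingleton.elim i 0
        rw [hi]
        exact hyx.symm
      rw [this]
      exact hy

/-- Petty's inequality in dimension one: the projection body of a nonempty compact convex
subset of `R^1` has length at least `2`. -/
theorem one_dim_petty (K : Set (Fin 1 → ℝ)) (hKc : IsCompact K) (hKv : Convex ℝ K)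
    (hKn : K.Nonempty) : pettyN 1 K := by
  obtain ⟨a, b, hab, rfl⟩ := one_dim_eq K hKc hKv hKn
  have h2 : 2 ≤ volN (projBodyN (e1 ⁻¹' (Icc a b))) := by
    unfold volN
    rw [projBodyN_eq, pbody_transfer volume volume e1 (fun _ _ => rfl) (fun _ _ => rfl) e1_mp dotN
      (fun x u : ℝ => x * u) e1_dot (Icc a b)]
    exact pbody_Icc_ge a b hab
  unfold pettyN
  have e : (1 : ℕ) - 1 = 0 := rfl
  rw [e, kappa_zero, kappa_one]
  simp only [pow_zero, pow_one, one_mul, mul_one]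
  calc (2 : ENNReal) ^ 2 = 2 * 2 := by ring
    _ ≤ 2 * volN (projBodyN (e1 ⁻¹' (Icc a b))) := by gcongr

theorem boxOver_convex (D : Set (ℝ × ℝ)) (hDv : Convex ℝ D) (n : ℕ) (h : Fin n → ℝ) :
    Convex ℝ (boxOver D n h) := by
  intro x hx y hy s t hs ht hst
  exact ⟨hDv hx.1 hy.1 hs ht hst, fun i => (convex_Icc (0:ℝ) (h i)) (hx.2 i) (hy.2 i) hs ht hst⟩

theorem boxOver_compact (D : Set (ℝ × ℝ)) (hDc : IsCompact D) (hDv : Convex ℝ D) (n : ℕ)
    (h : Fin n → ℝ) (hh : ∀ i, 0 ≤ h i) : IsCompact (boxOver D n h) :=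
  (box_main D hDc hDv n h hh).1

/-- Petty's inequality, in the form `pettyN`, for boxes over planar compact convex sets. -/
theorem boxOver_petty (D : Set (ℝ × ℝ)) (hDc : IsCompact D) (hDv : Convex ℝ D) (n : ℕ)
    (h : Fin n → ℝ) (hh : ∀ i, 0 ≤ h i) : pettyN (2 + n) (boxOver D n h) := by
  have e1 : 2 + n - 1 = 1 + n := by omega
  have e2 : 2 + n - 2 = n := by omega
  have hk : kapR (1 + n) ^ (2 + n) ≤ 2 ^ (2 + n) * kapR (2 + n) ^ n := by
    have hk := kappa_real (2 + n) (by omega)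
    rw [e1, e2] at hk
    exact hk
  have hb := box_petty D hDc hDv n h hh hk
  unfold pettyN
  rw [e1]
  show kappa (1 + n) ^ (2 + n) * kappa (2 + n) ^ 2 * volume (boxOver D n h) ^ (1 + n)
      ≤ kappa (2 + n) ^ (2 + n) * volume (pbody volume dotN (boxOver D n h))
  calc kappa (1 + n) ^ (2 + n) * kappa (2 + n) ^ 2 * volume (boxOver D n h) ^ (1 + n)
      = kappa (2 + n) ^ 2 * (kappa (1 + n) ^ (2 + n) * volume (boxOver D n h) ^ (1 + n)) := by
        ring
    _ ≤ kappa (2 + n) ^ 2 * (kappa (2 + n) ^ n * volume (pbody volume dotN (boxOver D n h))) := by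
        gcongr
    _ = kappa (2 + n) ^ (2 + n) * volume (pbody volume dotN (boxOver D n h)) := by
        rw [pow_add]
        ring

/-- The class of iterated products of boxes over planar compact convex sets: it contains every
box `boxOver D n h` (`D` planar compact convex, heights `h i ≥ 0`) and, with `K₁ ⊆ R^a` and
`K₂ ⊆ R^b`, their product `prodN K₁ K₂ ⊆ R^(a+b)`. -/
inductive BoxProd : (N : ℕ) → Set (Fin N → ℝ) → Prop
  | box (D : Set (ℝ × ℝ)) (hDc : IsCompact D) (hDv : Convex ℝ D) (n : ℕ) (h : Fin n → ℝ)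
      (hh : ∀ i, 0 ≤ h i) : BoxProd (2 + n) (boxOver D n h)
  | prod {a b : ℕ} {K₁ : Set (Fin a → ℝ)} {K₂ : Set (Fin b → ℝ)} :
      BoxProd a K₁ → BoxProd b K₂ → BoxProd (a + b) (prodN K₁ K₂)

theorem boxProd_all {N : ℕ} {K : Set (Fin N → ℝ)} (hK : BoxProd N K) :
    1 ≤ N ∧ IsCompact K ∧ Convex ℝ K ∧ pettyN N K := by
  induction hK with
  | box D hDc hDv n h hh =>
    exact ⟨by omega, boxOver_compact D hDc hDv n h hh, boxOver_convex D hDv n h,
      boxOver_petty D hDc hDv n h hh⟩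
  | prod _ _ ih1 ih2 =>
    obtain ⟨ha, h1c, h1v, hP1⟩ := ih1
    obtain ⟨hb, h2c, h2v, hP2⟩ := ih2
    exact ⟨by omega, prodN_compact _ _ h1c h2c, prodN_convex _ _ h1v h2v,
      prodN_petty ha hb _ _ h1c h1v h2c h2v hP1 hP2⟩

/-- Petty's inequality for every iterated product of boxes over planar compact convex sets. -/
theorem boxProd_petty {N : ℕ} {K : Set (Fin N → ℝ)} (hK : BoxProd N K) : pettyN N K :=
  (boxProd_all hK).2.2.2

/-- Petty's inequality in dimension two (in the form `pettyN`): `4 vol K ≤ vol (Π K)` for a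
compact convex subset of `R^2`. -/
theorem plane_petty (K : Set (Fin 2 → ℝ)) (hKc : IsCompact K) (hKv : Convex ℝ K) :
    pettyN 2 K := by
  have hD : K = (MeasurableEquiv.finTwoArrow : (Fin 2 → ℝ) ≃ᵐ ℝ × ℝ) ⁻¹'
      ((MeasurableEquiv.finTwoArrow : (Fin 2 → ℝ) ≃ᵐ ℝ × ℝ).symm ⁻¹' K) := by
    ext x
    rw [mem_preimage, mem_preimage, MeasurableEquiv.symm_apply_apply]
  have hcont : Continuous (MeasurableEquiv.finTwoArrow : (Fin 2 → ℝ) ≃ᵐ ℝ × ℝ) := by
    have h : ((MeasurableEquiv.finTwoArrow : (Fin 2 → ℝ) ≃ᵐ ℝ × ℝ) : (Fin 2 → ℝ) → ℝ × ℝ)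
        = (Homeomorph.finTwoArrow : (Fin 2 → ℝ) ≃ₜ ℝ × ℝ) := by
      funext p
      rfl
    rw [h]
    exact (Homeomorph.finTwoArrow : (Fin 2 → ℝ) ≃ₜ ℝ × ℝ).continuous
  have hDc : IsCompact ((MeasurableEquiv.finTwoArrow : (Fin 2 → ℝ) ≃ᵐ ℝ × ℝ).symm ⁻¹' K) :=
    compact_preimage (MeasurableEquiv.finTwoArrow : (Fin 2 → ℝ) ≃ᵐ ℝ × ℝ).symm hcont K hKc
  have hDv : Convex ℝ ((MeasurableEquiv.finTwoArrow : (Fin 2 → ℝ) ≃ᵐ ℝ × ℝ).symm ⁻¹' K) := by
    intro p hp q hq s t hs ht hst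
    have he : (MeasurableEquiv.finTwoArrow : (Fin 2 → ℝ) ≃ᵐ ℝ × ℝ).symm (s • p + t • q)
        = s • (MeasurableEquiv.finTwoArrow : (Fin 2 → ℝ) ≃ᵐ ℝ × ℝ).symm p
          + t • (MeasurableEquiv.finTwoArrow : (Fin 2 → ℝ) ≃ᵐ ℝ × ℝ).symm q := by
      funext i
      fin_cases i <;> rfl
    show (MeasurableEquiv.finTwoArrow : (Fin 2 → ℝ) ≃ᵐ ℝ × ℝ).symm (s • p + t • q) ∈ K
    rw [he]
    exact hKv hp hq hs ht hst
  have h := boxOver_petty _ hDc hDv 0 (fun i => i.elim0) (fun i => i.elim0)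
  rw [box_zero] at h
  rw [hD]
  exact h

/-- The class of iterated products of compact convex sets of dimensions one and two: it
contains every nonempty compact convex subset of `R^1`, every compact convex subset of `R^2`
and, with `K₁ ⊆ R^a` and `K₂ ⊆ R^b`, their product `prodN K₁ K₂ ⊆ R^(a+b)`. -/
inductive LowProd : (N : ℕ) → Set (Fin N → ℝ) → Prop
  | line (K : Set (Fin 1 → ℝ)) (hKc : IsCompact K) (hKv : Convex ℝ K) (hKn : K.Nonempty) :
      LowProd 1 K
  | plane (K : Set (Fin 2 → ℝ)) (hKc : IsCompact K) (hKv : Convex ℝ K) : LowProd 2 K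
  | prod {a b : ℕ} {K₁ : Set (Fin a → ℝ)} {K₂ : Set (Fin b → ℝ)} :
      LowProd a K₁ → LowProd b K₂ → LowProd (a + b) (prodN K₁ K₂)

theorem lowProd_all {N : ℕ} {K : Set (Fin N → ℝ)} (hK : LowProd N K) :
    1 ≤ N ∧ IsCompact K ∧ Convex ℝ K ∧ pettyN N K := by
  induction hK with
  | line K hKc hKv hKn => exact ⟨le_refl 1, hKc, hKv, one_dim_petty K hKc hKv hKn⟩
  | plane K hKc hKv => exact ⟨by omega, hKc, hKv, plane_petty K hKc hKv⟩
  | prod _ _ ih1 ih2 =>
    obtain ⟨ha, h1c, h1v, hP1⟩ := ih1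
    obtain ⟨hb, h2c, h2v, hP2⟩ := ih2
    exact ⟨by omega, prodN_compact _ _ h1c h2c, prodN_convex _ _ h1v h2v,
      prodN_petty ha hb _ _ h1c h1v h2c h2v hP1 hP2⟩

/-- Petty's inequality for every iterated product of compact convex sets of dimensions one
and two. -/
theorem lowProd_petty {N : ℕ} {K : Set (Fin N → ℝ)} (hK : LowProd N K) : pettyN N K :=
  (lowProd_all hK).2.2.2

/-- For `N ≥ 2`, `pettyN N K` is Petty's inequality in its usual form
`κ_(N-1)^N vol(K)^(N-1) ≤ κ_N^(N-2) vol(Π K)`. -/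
theorem pettyN_iff {N : ℕ} (hN : 2 ≤ N) (K : Set (Fin N → ℝ)) :
    pettyN N K ↔ kappa (N - 1) ^ N * volN K ^ (N - 1) ≤ kappa N ^ (N - 2) * volN (projBodyN K) := by
  obtain ⟨m, rfl⟩ : ∃ m, N = m + 2 := ⟨N - 2, by omega⟩
  have e1 : m + 2 - 1 = m + 1 := rfl
  have e2 : m + 2 - 2 = m := rfl
  unfold pettyN
  rw [e1, e2]
  have hc0 : kappa (m + 2) ^ 2 ≠ 0 := pow_ne_zero _ (kappa_ne_zero _)
  have hct : kappa (m + 2) ^ 2 ≠ ⊤ := ENNReal.pow_ne_top (kappa_ne_top _)
  have hl : kappa (m + 1) ^ (m + 2) * kappa (m + 2) ^ 2 * volN K ^ (m + 1)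
      = kappa (m + 1) ^ (m + 2) * volN K ^ (m + 1) * kappa (m + 2) ^ 2 := by ring
  have hr : kappa (m + 2) ^ (m + 2) * volN (projBodyN K)
      = kappa (m + 2) ^ m * volN (projBodyN K) * kappa (m + 2) ^ 2 := by
    rw [pow_add]
    ring
  rw [hl, hr, ENNReal.mul_le_mul_iff_left hc0 hct]

end Vale.Agent.Lib.P237.H55
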