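import Mathlib
import Vale.Agent.Lib.P237.helper55.ProdClass
import Vale.Agent.Lib.P237.helper55.PettyStrict

/-!
# P237: strictness of Petty's inequality for products in dimension at least three

If `K₁ ⊆ R^a` and `K₂ ⊆ R^b` are compact convex sets of positive volume that satisfy Petty's
inequality and `a + b ≥ 3`, then the product `prodN K₁ K₂` satisfies it strictly.  In
particular every member of the class `LowProd` of dimension at least three and positive volume
satisfies Petty's inequality strictly.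
-/

open MeasureTheory Set
open scoped Pointwise

namespace Vale.Agent.Lib.P237.H55

open Vale.Agent.Lib.P237

/-- Petty's inequality with strict sign (in the form of `pettyN`). -/
def pettyLtN (N : ℕ) (K : Set (Fin N → ℝ)) : Prop :=
  kappa (N - 1) ^ N * kappa N ^ 2 * volN K ^ (N - 1) < kappa N ^ N * volN (projBodyN K)

theorem prodN_petty_lt {a b : ℕ} (ha : 1 ≤ a) (hb : 1 ≤ b) (hab : 3 ≤ a + b)
    (K₁ : Set (Fin a → ℝ)) (K₂ : Set (Fin b → ℝ))
    (h1 : IsCompact K₁) (h1v : Convex ℝ K₁) (h2 : IsCompact K₂) (h2v : Convex ℝ K₂)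
    (hv1 : volN K₁ ≠ 0) (hv2 : volN K₂ ≠ 0)
    (hP1 : pettyN a K₁) (hP2 : pettyN b K₂) : pettyLtN (a + b) (prodN K₁ K₂) := by
  have hmain := prodN_main K₁ K₂ h1 h1v h2 h2v
  obtain ⟨p, rfl⟩ : ∃ p, a = p + 1 := ⟨a - 1, by omega⟩
  obtain ⟨q, rfl⟩ : ∃ q, b = q + 1 := ⟨b - 1, by omega⟩
  unfold pettyN at hP1 hP2
  unfold pettyLtN
  rw [volN_prodN]
  have e1 : p + 1 - 1 = p := rfl
  have e2 : q + 1 - 1 = q := rfl
  have e3 : p + 1 + (q + 1) - 1 = p + q + 1 := by omega
  have e4 : p + 1 + (q + 1) = p + q + 2 := by omega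
  rw [e1] at hP1
  rw [e2] at hP2
  rw [e3]
  have ht1 : volN K₁ ≠ ⊤ := h1.measure_lt_top.ne
  have ht2 : volN K₂ ≠ ⊤ := h2.measure_lt_top.ne
  have h := petty_alg_lt p q (by omega) (volN K₁) (volN K₂) (volN (projBodyN K₁))
    (volN (projBodyN K₂)) (volN (projBodyN (prodN K₁ K₂))) hv1 ht1 hv2 ht2 hP1 hP2 hmain
  generalize volN (projBodyN (prodN K₁ K₂)) = P at h ⊢
  rw [e4]
  exact h

/-- Every member of `LowProd` of dimension at least three and positive volume satisfies
Petty's inequality strictly. -/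
theorem lowProd_petty_lt {N : ℕ} {K : Set (Fin N → ℝ)} (hK : LowProd N K) (hN : 3 ≤ N)
    (hpos : volN K ≠ 0) : pettyLtN N K := by
  cases hK with
  | line K hKc hKv hKn => omega
  | plane K hKc hKv => omega
  | prod hA hB =>
    obtain ⟨ha, h1c, h1v, hP1⟩ := lowProd_all hA
    obtain ⟨hb, h2c, h2v, hP2⟩ := lowProd_all hB
    rw [volN_prodN] at hpos
    exact prodN_petty_lt ha hb hN _ _ h1c h1v h2c h2v (left_ne_zero_of_mul hpos)
      (right_ne_zero_of_mul hpos) hP1 hP2

end Vale.Agent.Lib.P237.H55
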